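import Vale.Agent.P096.AT.Means.Windows

/-!
# The windows of two modular operators are close when the logistic functions are

For a fixed width every window is a fixed function of one logistic function, so a polynomial
approximation is enough, and the phases in `[-1, 1]` are covered by a finite grid. A wide window is
a combination of logistic functions with total variation two, up to an error inverse to the width.
-/

noncomputable section

namespace Vale.Agent.P096.AT.Means

open Complex Set Filter Topology Polynomial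
open Vale.Agent.P132.Tomita (ell qd phase fR)
open scoped ComplexConjugate

universe u

section Scalar

/-- The Gaussian of width `a`. -/
def bell (a y : ℝ) : ℝ := Real.exp (-(y / a) ^ 2)

lemma bell_nonneg (a y : ℝ) : 0 ≤ bell a y := (Real.exp_pos _).le

lemma bell_le_one (a y : ℝ) : bell a y ≤ 1 :=
  Real.exp_le_one_iff.2 (neg_nonpos.2 (sq_nonneg _))

lemma bell_neg (a y : ℝ) : bell a (-y) = bell a y := by simp [bell, neg_div]

lemma bell_anti {a x y : ℝ} (ha : 0 < a) (h : |x| ≤ |y|) : bell a y ≤ bell a x := by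
  rw [bell, bell, Real.exp_le_exp, neg_le_neg_iff, sq_le_sq, abs_div, abs_div]
  gcongr

lemma abs_mul_exp_neg_sq_le (u : ℝ) : |u| * Real.exp (-u ^ 2) ≤ 1 / 2 := by
  rw [Real.exp_neg, mul_inv_le_iff₀ (Real.exp_pos _)]
  have h1 := Real.add_one_le_exp (u ^ 2)
  nlinarith [sq_nonneg (|u| - 1), sq_abs u, abs_nonneg u]

lemma abs_mul_bell_le {a : ℝ} (ha : 0 < a) (y : ℝ) : |y| * bell a y ≤ a := by
  have h := abs_mul_exp_neg_sq_le (y / a)
  rw [abs_div, abs_of_pos ha, div_mul_eq_mul_div, div_le_iff₀ ha] at h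
  rw [bell]
  linarith

lemma abs_bell_sub_le {a : ℝ} (ha : 0 < a) (x y : ℝ) : |bell a x - bell a y| ≤ |x - y| / a := by
  have hd : ∀ t : ℝ, HasDerivAt (bell a) (Real.exp (-(t / a) ^ 2) * (-(2 * (t / a) * (1 / a)))) t := by
    intro t
    have h := (((hasDerivAt_id t).div_const a).pow 2).neg.exp
    exact h.congr_deriv (by simp)
  have h := (convex_univ (𝕜 := ℝ) (E := ℝ)).norm_image_sub_le_of_norm_hasDerivWithin_le
    (f := bell a) (C := 1 / a)
    (fun t _ => (hd t).hasDerivWithinAt) (fun t _ => ?_) (mem_univ y) (mem_univ x)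
  · simpa [Real.norm_eq_abs, div_eq_inv_mul] using h
  · have h1 := abs_mul_exp_neg_sq_le (t / a)
    have h2 : 0 < 1 / a := by positivity
    rw [Real.norm_eq_abs, abs_mul, abs_neg, abs_mul, abs_mul, abs_of_pos (Real.exp_pos _),
      abs_two, abs_of_pos h2]
    nlinarith [mul_le_mul_of_nonneg_right h1 h2.le]

/-- The logistic function in the variable `y = ell r - c`. -/
def sig (y : ℝ) : ℝ := (1 + Real.exp y)⁻¹

lemma sig_nonneg (y : ℝ) : 0 ≤ sig y := by
  unfold sig; positivity

lemma sig_le (y : ℝ) : sig y ≤ Real.exp (-y) := by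
  rw [sig, Real.exp_neg]
  exact inv_anti₀ (Real.exp_pos y) (by linarith)

lemma one_sub_sig_nonneg (y : ℝ) : 0 ≤ 1 - sig y := by
  rw [sig, sub_nonneg]
  exact inv_le_one_of_one_le₀ (by linarith [Real.exp_pos y])

lemma one_sub_sig_le (y : ℝ) : 1 - sig y ≤ Real.exp y := by
  have h : 0 < 1 + Real.exp y := by positivity
  rw [sig, show 1 - (1 + Real.exp y)⁻¹ = Real.exp y / (1 + Real.exp y) by field_simp; ring,
    div_le_iff₀ h]
  nlinarith [Real.exp_pos y]

lemma exp_neg_natCast_le (m : ℕ) : Real.exp (-(m : ℝ)) ≤ (1 / 2 : ℝ) ^ m := by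
  rw [show -(m : ℝ) = m * (-1 : ℝ) by ring, Real.exp_nat_mul]
  refine pow_le_pow_left₀ (Real.exp_pos _).le ?_ m
  rw [Real.exp_neg, one_div]
  exact inv_anti₀ (by norm_num) (by linarith [Real.add_one_le_exp (1 : ℝ)])

lemma sum_exp_le_two {s : Finset ℕ} {g : ℕ → ℕ} (hg : Set.InjOn g s) :
    ∑ i ∈ s, Real.exp (-(g i : ℝ)) ≤ 2 := by
  refine (Finset.sum_le_sum fun i _ => exp_neg_natCast_le (g i)).trans ?_
  rw [← Finset.sum_image (f := fun m : ℕ => (1 / 2 : ℝ) ^ m) hg]
  refine le_trans ?_ (sum_geometric_two_le ((s.image g).sup id + 1))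
  refine Finset.sum_le_sum_of_subset_of_nonneg (fun m hm => ?_) fun _ _ _ => by positivity
  exact Finset.mem_range.2 (Nat.lt_succ_of_le (Finset.le_sup (f := id) hm))

/-- The increments of the Gaussian on the integer points of `[-n, n)`. -/
def incr (a : ℝ) (n i : ℕ) : ℝ := bell a ((i : ℝ) - n) - bell a ((i : ℝ) + 1 - n)

lemma sum_incr_Ico (a : ℝ) (n : ℕ) {l u : ℕ} (h : l ≤ u) :
    ∑ i ∈ Finset.Ico l u, incr a n i = bell a ((l : ℝ) - n) - bell a ((u : ℝ) - n) := by
  induction u, h using Nat.le_induction with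
  | base => simp
  | succ u hu ih =>
    rw [Finset.sum_Ico_succ_top hu, ih, incr]
    push_cast
    ring

lemma abs_incr_le {a : ℝ} (ha : 0 < a) (n i : ℕ) : |incr a n i| ≤ 1 / a := by
  refine (abs_bell_sub_le ha _ _).trans (le_of_eq ?_)
  rw [show (i : ℝ) - n - (i + 1 - n) = -1 by ring, abs_neg, abs_one]

lemma sum_abs_incr_le {a : ℝ} (ha : 0 < a) (n : ℕ) :
    ∑ i ∈ Finset.range (2 * n), |incr a n i| ≤ 2 := by
  rw [Finset.range_eq_Ico, ← Finset.sum_Ico_consecutive _ (Nat.zero_le n) (by omega : n ≤ 2 * n)]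
  have h1 : ∀ i ∈ Finset.Ico 0 n, |incr a n i| = -incr a n i := fun i hi => by
    have hi' : (i : ℝ) + 1 ≤ n := by exact_mod_cast (Finset.mem_Ico.1 hi).2
    refine abs_of_nonpos (sub_nonpos.2 (bell_anti ha ?_))
    rw [abs_of_nonpos (by linarith), abs_of_nonpos (by linarith)]
    linarith
  have h2 : ∀ i ∈ Finset.Ico n (2 * n), |incr a n i| = incr a n i := fun i hi => by
    have hi' : (n : ℝ) ≤ i := by exact_mod_cast (Finset.mem_Ico.1 hi).1
    refine abs_of_nonneg (sub_nonneg.2 (bell_anti ha ?_))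
    rw [abs_of_nonneg (by linarith), abs_of_nonneg (by linarith)]
    linarith
  rw [Finset.sum_congr rfl h1, Finset.sum_congr rfl h2, Finset.sum_neg_distrib,
    sum_incr_Ico a n (Nat.zero_le n), sum_incr_Ico a n (by omega : n ≤ 2 * n), sub_self]
  have := bell_le_one a 0
  have := bell_nonneg a (((0 : ℕ) : ℝ) - n)
  have := bell_nonneg a (((2 * n : ℕ) : ℝ) - n)
  linarith

/-- A wide Gaussian is a combination of logistic functions. -/
lemma abs_sum_incr_sub_le {a : ℝ} (ha : 0 < a) {n : ℕ} (hn : bell a n ≤ 1 / a) (y : ℝ) :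
    |∑ i ∈ Finset.range (2 * n), incr a n i * sig (y - ((i : ℝ) - n)) - bell a y| ≤ 6 / a := by
  set I := ⌈y + n⌉₊ with hI
  have hup : ∀ i, (I ≤ i ↔ y ≤ (i : ℝ) - n) := fun i => by
    rw [hI, Nat.ceil_le, le_sub_iff_add_le]
  set ind : ℕ → ℝ := fun i => if I ≤ i then 1 else 0 with hind
  have hdiff : |∑ i ∈ Finset.range (2 * n), incr a n i * (sig (y - ((i : ℝ) - n)) - ind i)|
      ≤ 4 / a := by
    refine (Finset.abs_sum_le_sum_abs _ _).trans ?_
    refine (Finset.sum_le_sum (g := fun i : ℕ => 1 / a *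
      Real.exp (-(((if I ≤ i then i - I else I - 1 - i : ℕ) : ℝ)))) fun i _ => ?_).trans ?_
    · rw [abs_mul]
      refine mul_le_mul (abs_incr_le ha n i) ?_ (abs_nonneg _) (by positivity)
      simp only [hind]
      by_cases h : I ≤ i
      · rw [if_pos h, if_pos h, abs_sub_comm, abs_of_nonneg (one_sub_sig_nonneg _)]
        refine (one_sub_sig_le _).trans (Real.exp_le_exp.2 ?_)
        have := Nat.le_ceil (y + n)
        rw [Nat.cast_sub h]
        linarith
      · rw [if_neg h, if_neg h, sub_zero, abs_of_nonneg (sig_nonneg _)]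
        refine (sig_le _).trans (Real.exp_le_exp.2 ?_)
        have h0 : 0 < I := by omega
        have : ((I - 1 : ℕ) : ℝ) < y + n := Nat.lt_ceil.1 (by omega)
        rw [Nat.cast_sub (by omega : i ≤ I - 1)]
        linarith
    · rw [← Finset.mul_sum, ← Finset.sum_filter_add_sum_filter_not _ (fun i => I ≤ i)]
      have e1 : ∀ (s : Finset ℕ) (g : ℕ → ℕ), Set.InjOn g s →
          (∀ i ∈ s, (if I ≤ i then i - I else I - 1 - i) = g i) →
          ∑ i ∈ s, Real.exp (-(((if I ≤ i then i - I else I - 1 - i : ℕ) : ℝ))) ≤ 2 := by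
        intro s g hg he
        rw [Finset.sum_congr rfl fun i hi => by rw [he i hi]]
        exact sum_exp_le_two hg
      have a1 := e1 ((Finset.range (2 * n)).filter fun i => I ≤ i) (fun i => i - I)
        (fun i hi j hj h => by
          simp only [Finset.coe_filter, Set.mem_ofPred_eq] at hi hj
          simp only at h
          omega)
        fun i hi => if_pos (Finset.mem_filter.1 hi).2
      have a2 := e1 ((Finset.range (2 * n)).filter fun i => ¬ I ≤ i) (fun i => I - 1 - i)
        (fun i hi j hj h => by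
          simp only [Finset.coe_filter, Set.mem_ofPred_eq] at hi hj
          simp only at h
          omega)
        fun i hi => if_neg (Finset.mem_filter.1 hi).2
      calc 1 / a * _ ≤ 1 / a * (2 + 2) := mul_le_mul_of_nonneg_left (add_le_add a1 a2) (by positivity)
        _ = 4 / a := by ring
  have hmain : |∑ i ∈ Finset.range (2 * n), incr a n i * ind i - bell a y| ≤ 2 / a := by
    simp only [hind, mul_ite, mul_one, mul_zero, ← Finset.sum_filter]
    have hset : (Finset.range (2 * n)).filter (fun i => I ≤ i) = Finset.Ico I (2 * n) := by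
      ext i; simp [and_comm]
    rw [hset]
    have hy0 := bell_nonneg a y
    have htop : ((2 * n : ℕ) : ℝ) - n = n := by push_cast; ring
    by_cases h : I ≤ 2 * n
    · rw [sum_incr_Ico a n h, htop]
      have hIy : |bell a ((I : ℝ) - n) - bell a y| ≤ 1 / a := by
        by_cases hlow : y + n ≤ 0
        · have : I = 0 := Nat.ceil_eq_zero.2 hlow
          rw [this, Nat.cast_zero, zero_sub, bell_neg]
          have hb : bell a y ≤ bell a n := bell_anti ha (by
            rw [abs_of_nonneg (Nat.cast_nonneg n)]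
            exact le_trans (by linarith) (neg_le_abs y))
          rw [abs_le]
          constructor <;> linarith [bell_nonneg a n]
        · refine (abs_bell_sub_le ha _ _).trans ?_
          gcongr
          have h1 := Nat.le_ceil (y + n)
          have h2 := Nat.ceil_lt_add_one (le_of_not_ge hlow)
          rw [abs_le]
          constructor <;> linarith
      rw [abs_le] at hIy ⊢
      have := bell_nonneg a n
      have e : (2 : ℝ) / a = 1 / a + 1 / a := by ring
      constructor <;> linarith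
    · rw [Finset.Ico_eq_empty (by omega), Finset.sum_empty, zero_sub, abs_neg, abs_of_nonneg hy0]
      have hy : (n : ℝ) < y := by
        by_contra hc
        refine h ((hup (2 * n)).2 ?_)
        rw [htop]
        linarith
      have hb : bell a y ≤ bell a n := bell_anti ha (by
        rw [abs_of_nonneg (Nat.cast_nonneg n)]
        exact hy.le.trans (le_abs_self y))
      have : 0 ≤ 1 / a := by positivity
      have e : (2 : ℝ) / a = 1 / a + 1 / a := by ring
      linarith
  calc _ = |(∑ i ∈ Finset.range (2 * n), incr a n i * (sig (y - ((i : ℝ) - n)) - ind i)) +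
        (∑ i ∈ Finset.range (2 * n), incr a n i * ind i - bell a y)| := by
        congr 1
        simp only [mul_sub, Finset.sum_sub_distrib]; ring
    _ ≤ _ := abs_add_le _ _
    _ ≤ 4 / a + 2 / a := add_le_add hdiff hmain
    _ = 6 / a := by ring

lemma logi_eq_sig (c : ℝ) {r : ℝ} (hr : r ∈ Ioo (0 : ℝ) 2) : logi (-c) r = sig (ell r - c) := by
  have h2 : 0 < 2 - r := by linarith [hr.2]
  rw [logi, sig, show ell r - c = -c + ell r by ring, Real.exp_add, ell, Real.exp_log (div_pos h2 hr.1)]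
  have := hr.1.ne'
  field_simp

lemma endpoint {r : ℝ} (hr : r ∈ Icc (0 : ℝ) 2) (h : r ∉ Ioo (0 : ℝ) 2) : r = 0 ∨ r = 2 := by
  rcases eq_or_lt_of_le hr.1 with h' | h'
  · exact Or.inl h'.symm
  · exact Or.inr (by by_contra hne; exact h ⟨h', lt_of_le_of_ne hr.2 hne⟩)

/-- The combination of logistic functions at the integer shifts around `c`. -/
def comb (a c : ℝ) (n : ℕ) (r : ℝ) : ℂ :=
  ∑ i ∈ Finset.range (2 * n), (incr a n i : ℂ) * (logi (-(c + ((i : ℝ) - n))) r : ℂ)

lemma norm_win_sub_comb_le {a : ℝ} (ha : 0 < a) {n : ℕ} (hn : bell a n ≤ 1 / a) (c : ℝ) {r : ℝ}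
    (hr : r ∈ Icc (0 : ℝ) 2) : ‖win a 0 c r - comb a c n r‖ ≤ 6 / a := by
  by_cases h : r ∈ Ioo (0 : ℝ) 2
  · rw [win, P132.Tomita.phase_zero, one_mul, gw_of_mem a c h, norm_sub_rev,
      show comb a c n r - _ = ((∑ i ∈ Finset.range (2 * n),
        incr a n i * sig (ell r - c - ((i : ℝ) - n)) - bell a (ell r - c) : ℝ) : ℂ) from ?_,
      Complex.norm_real, Real.norm_eq_abs]
    · exact abs_sum_incr_sub_le ha hn _
    · simp only [comb, bell, Complex.ofReal_sub, Complex.ofReal_sum, Complex.ofReal_mul]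
      refine congrArg₂ _ (Finset.sum_congr rfl fun i _ => ?_) rfl
      rw [logi_eq_sig _ h, sub_sub]
  · have h0 : comb a c n r = 0 := by
      rcases endpoint hr h with rfl | rfl
      · simp [comb, logi]
      · have : ∀ t, logi t 2 = 1 := fun t => by simp [logi]
        simp only [comb, this, Complex.ofReal_one, mul_one, ← Complex.ofReal_sum,
          Complex.ofReal_eq_zero]
        rw [Finset.range_eq_Ico, sum_incr_Ico a n (Nat.zero_le _)]
        push_cast
        rw [zero_sub, bell_neg, show (2 : ℝ) * n - n = n by ring, sub_self]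
    have hw : win a 0 c r = 0 := by
      rcases endpoint hr h with rfl | rfl
      exacts [win_zero a 0 c, win_two a 0 c]
    rw [h0, hw, sub_zero, norm_zero]
    positivity

/-- A window is a fixed function of one logistic function. -/
lemma win_eq (a s c : ℝ) {r : ℝ} (hr : r ∈ Icc (0 : ℝ) 2) :
    win a s c r = Complex.exp (((s * c : ℝ) : ℂ) * I) * win a s 0 (2 * logi (-c) r) := by
  by_cases h : r ∈ Ioo (0 : ℝ) 2
  · obtain ⟨h1, h2⟩ := ell_two_logi (-c) h
    rw [win, win, gw_of_mem a c h, gw_of_mem a 0 h1, h2, sub_zero, ← sub_eq_add_neg, ← mul_assoc,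
      phase, phase, ← Complex.exp_add, h2]
    congr 2
    push_cast
    ring
  · rcases endpoint hr h with rfl | rfl
    · simp [win_zero, logi]
    · simp [win_two, logi]

lemma norm_phase_sub_le (s t r : ℝ) : ‖phase s r - phase t r‖ ≤ |s - t| * |ell r| := by
  have e : phase s r - phase t r = phase t r * (Complex.exp (I * ((s - t) * ell r : ℝ)) - 1) := by
    rw [mul_sub, mul_one, phase, phase, ← Complex.exp_add]
    congr 2
    push_cast
    ring
  rw [e, norm_mul, P132.Tomita.norm_phase, one_mul]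
  refine (Real.norm_exp_I_mul_ofReal_sub_one_le).trans ?_
  rw [Real.norm_eq_abs, abs_mul]

lemma norm_win_sub_le {a : ℝ} (ha : 0 < a) (s t : ℝ) {r : ℝ} (hr : r ∈ Icc (0 : ℝ) 2) :
    ‖win a s 0 r - win a t 0 r‖ ≤ |s - t| * a := by
  by_cases h : r ∈ Ioo (0 : ℝ) 2
  · rw [win, win, ← sub_mul, norm_mul, gw_of_mem a 0 h, sub_zero, Complex.norm_real,
      Real.norm_eq_abs, abs_of_pos (Real.exp_pos _)]
    refine (mul_le_mul_of_nonneg_right (norm_phase_sub_le s t r) (Real.exp_pos _).le).trans ?_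
    rw [mul_assoc]
    exact mul_le_mul_of_nonneg_left (abs_mul_bell_le ha (ell r)) (abs_nonneg _)
  · rcases endpoint hr h with rfl | rfl
    · simp only [win_zero, sub_self, norm_zero]; positivity
    · simp only [win_two, sub_self, norm_zero]; positivity

end Scalar

section Operators

/-- The logistic functions of the two modular operators are `ε` close. -/
def LogiClose {H : Type u} [NormedAddCommGroup H] [InnerProductSpace ℂ H] [CompleteSpace H]
    (M N : VonNeumannAlgebra H) (ξ : H) (ε : ℝ) : Prop :=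
  ∀ c : ℝ, ‖fR M ξ (fun r => (logi c r : ℂ)) - fR N ξ (fun r => (logi c r : ℂ))‖ ≤ ε

variable {H : Type u} [NormedAddCommGroup H] [InnerProductSpace ℂ H] [CompleteSpace H]

lemma continuousOn_logiC (c : ℝ) : ContinuousOn (fun r => (logi c r : ℂ)) (Icc 0 2) :=
  Complex.continuous_ofReal.comp_continuousOn (continuousOn_logi c)

lemma norm_pow_sub_pow_le' {A : Type*} [NormedRing A] {x y : A} {C ε : ℝ} (hC : 1 ≤ C)
    (hx : ‖x‖ ≤ C) (hy : ‖y‖ ≤ C) (h : ‖x - y‖ ≤ ε) :
    ∀ n : ℕ, ‖x ^ n - y ^ n‖ ≤ n * C ^ n * ε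
  | 0 => by simp
  | n + 1 => by
    have ih := norm_pow_sub_pow_le' hC hx hy h n
    have hε : 0 ≤ ε := (norm_nonneg _).trans h
    have hC0 : 0 ≤ C := by linarith
    have hyn : ∀ m : ℕ, ‖y ^ m * (x - y)‖ ≤ C ^ m * ε := by
      intro m
      rcases m.eq_zero_or_pos with rfl | hm
      · simpa using h
      · exact (norm_mul_le _ _).trans (mul_le_mul ((norm_pow_le' _ hm).trans
          (pow_le_pow_left₀ (norm_nonneg _) hy m)) h (norm_nonneg _) (by positivity))
    have e : x ^ (n + 1) - y ^ (n + 1) = (x ^ n - y ^ n) * x + y ^ n * (x - y) := by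
      rw [pow_succ, pow_succ]; noncomm_ring
    rw [e]
    refine (norm_add_le _ _).trans ((add_le_add ((norm_mul_le _ _).trans
      (mul_le_mul ih hx (norm_nonneg _) ((norm_nonneg _).trans ih))) (hyn n)).trans ?_)
    have : C ^ n * ε ≤ C ^ (n + 1) * ε :=
      mul_le_mul_of_nonneg_right (pow_le_pow_right₀ hC (Nat.le_succ n)) hε
    push_cast
    rw [pow_succ] at this ⊢
    linarith

/-- The bound for a monomial in a logistic function. -/
lemma norm_mono_sub_le {M N : VonNeumannAlgebra H} {ξ : H} {ε : ℝ} (h : LogiClose M N ξ ε)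
    (b : ℂ) (n : ℕ) (c : ℝ) :
    ‖fR M ξ (fun r => b * ((2 * logi c r : ℝ) : ℂ) ^ n) -
        fR N ξ (fun r => b * ((2 * logi c r : ℝ) : ℂ) ^ n)‖ ≤ ‖b‖ * (2 * n * 2 ^ n) * ε := by
  have hcl : ContinuousOn (fun r => ((2 * logi c r : ℝ) : ℂ)) (Icc 0 2) :=
    Complex.continuous_ofReal.comp_continuousOn (continuousOn_const.mul (continuousOn_logi c))
  have hp : ∀ (A : VonNeumannAlgebra H) (m : ℕ), fR A ξ (fun r => ((2 * logi c r : ℝ) : ℂ) ^ m) =
      fR A ξ (fun r => ((2 * logi c r : ℝ) : ℂ)) ^ m := by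
    intro A m
    induction m with
    | zero => simpa using P132.Tomita.fR_const (M := A) (Ω := ξ) 1
    | succ m ih =>
      simp only [pow_succ]
      rw [P132.Tomita.fR_mul (f := fun r => ((2 * logi c r : ℝ) : ℂ) ^ m) (hcl.pow m) hcl, ih]
  have hn : ∀ A : VonNeumannAlgebra H, ‖fR A ξ (fun r => ((2 * logi c r : ℝ) : ℂ))‖ ≤ 2 :=
    fun A => P132.Tomita.norm_fR_le (by norm_num) fun r hr => by
      have := two_logi_mem c hr
      rw [Complex.norm_real, Real.norm_of_nonneg this.1]
      exact this.2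
  have hd : ‖fR M ξ (fun r => ((2 * logi c r : ℝ) : ℂ)) -
      fR N ξ (fun r => ((2 * logi c r : ℝ) : ℂ))‖ ≤ 2 * ε := by
    simp only [Complex.ofReal_mul, Complex.ofReal_ofNat,
      P132.Tomita.fR_const_mul _ (continuousOn_logiC c), ← smul_sub]
    refine (norm_smul_le _ _).trans ?_
    rw [Complex.norm_ofNat]
    exact mul_le_mul_of_nonneg_left (h c) (by norm_num)
  rw [P132.Tomita.fR_const_mul b (f := fun r => ((2 * logi c r : ℝ) : ℂ) ^ n) (hcl.pow n),
    P132.Tomita.fR_const_mul b (f := fun r => ((2 * logi c r : ℝ) : ℂ) ^ n) (hcl.pow n), ← smul_sub,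
    norm_smul, hp, hp]
  refine (mul_le_mul_of_nonneg_left (norm_pow_sub_pow_le' (by norm_num) (hn M) (hn N) hd n)
    (norm_nonneg b)).trans (le_of_eq ?_)
  ring

/-- The bound for a polynomial in a logistic function. -/
lemma exists_poly_bound (p : ℂ[X]) : ∃ K : ℝ, 0 ≤ K ∧
    ∀ (H : Type u) [NormedAddCommGroup H] [InnerProductSpace ℂ H] [CompleteSpace H]
      (M N : VonNeumannAlgebra H) (ξ : H) (ε : ℝ), LogiClose M N ξ ε → ∀ c : ℝ,
      ‖fR M ξ (fun r => p.eval ((2 * logi c r : ℝ) : ℂ)) -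
        fR N ξ (fun r => p.eval ((2 * logi c r : ℝ) : ℂ))‖ ≤ K * ε := by
  induction p using Polynomial.induction_on' with
  | add p q hp hq =>
    obtain ⟨K₁, hK₁, h₁⟩ := hp
    obtain ⟨K₂, hK₂, h₂⟩ := hq
    refine ⟨K₁ + K₂, add_nonneg hK₁ hK₂, fun H _ _ _ M N ξ ε hε c => ?_⟩
    have hcl : ContinuousOn (fun r => ((2 * logi c r : ℝ) : ℂ)) (Icc 0 2) :=
      Complex.continuous_ofReal.comp_continuousOn (continuousOn_const.mul (continuousOn_logi c))
    have hc : ∀ p : ℂ[X], ContinuousOn (fun r => p.eval ((2 * logi c r : ℝ) : ℂ)) (Icc 0 2) :=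
      fun p => p.continuous.comp_continuousOn hcl
    simp only [eval_add]
    rw [P132.Tomita.fR_add (hc p) (hc q), P132.Tomita.fR_add (hc p) (hc q), add_sub_add_comm,
      add_mul]
    exact (norm_add_le _ _).trans (add_le_add (h₁ H M N ξ ε hε c) (h₂ H M N ξ ε hε c))
  | monomial n b =>
    refine ⟨‖b‖ * (2 * n * 2 ^ n), by positivity, fun H _ _ _ M N ξ ε hε c => ?_⟩
    simp only [eval_monomial]
    exact norm_mono_sub_le hε b n c

/-- For every width and phase: windows are close once the logistic functions are. -/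
lemma exists_fixed_close {a : ℝ} (ha : 0 < a) (s : ℝ) {η : ℝ} (hη : 0 < η) :
    ∀ᶠ ε in 𝓝[>] (0 : ℝ), ∀ (H : Type u) [NormedAddCommGroup H] [InnerProductSpace ℂ H]
      [CompleteSpace H] (M N : VonNeumannAlgebra H) (ξ : H), LogiClose M N ξ ε → ∀ t c : ℝ,
      |t - s| ≤ η / (4 * a) → ‖fR M ξ (win a t c) - fR N ξ (win a t c)‖ ≤ η := by
  obtain ⟨p, hp⟩ := P132.Tomita.exists_polynomial (continuousOn_win ha s 0)
    (show 0 < η / 8 by positivity)
  obtain ⟨K, hK0, hK⟩ := exists_poly_bound.{u} p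
  filter_upwards [Ioo_mem_nhdsGT (show 0 < η / (4 * (K + 1)) by positivity)] with ε hε H _ _ _ M N ξ
    hclose t c ht
  set L : ℝ → ℂ := fun r =>
    Complex.exp (((t * c : ℝ) : ℂ) * I) * p.eval ((2 * logi (-c) r : ℝ) : ℂ) with hL
  have hpc : ContinuousOn (fun r => p.eval ((2 * logi (-c) r : ℝ) : ℂ)) (Icc 0 2) :=
    p.continuous.comp_continuousOn (Complex.continuous_ofReal.comp_continuousOn
      (continuousOn_const.mul (continuousOn_logi (-c))))
  have hLc : ContinuousOn L (Icc 0 2) := continuousOn_const.mul hpc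
  have hWc := continuousOn_win ha t c
  have hsup : ∀ r ∈ Icc (0 : ℝ) 2, ‖win a t c r - L r‖ ≤ 3 * η / 8 := by
    intro r hr
    rw [win_eq a t c hr, hL, ← mul_sub, norm_mul, Complex.norm_exp_ofReal_mul_I, one_mul]
    have hx := two_logi_mem (-c) hr
    refine (norm_sub_le_norm_sub_add_norm_sub _ (win a s 0 (2 * logi (-c) r)) _).trans ?_
    have h1 : |t - s| * a ≤ η / 4 := by
      refine (mul_le_mul_of_nonneg_right ht ha.le).trans (le_of_eq ?_)
      field_simp
    have := norm_win_sub_le ha t s hx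
    have := (hp _ hx).le
    linarith
  have hKe : K * ε ≤ η / 4 := by
    have h := hε.2.le
    rw [le_div_iff₀ (by positivity)] at h
    nlinarith [hε.1]
  have hmid : ‖fR M ξ L - fR N ξ L‖ ≤ η / 4 := by
    rw [hL, P132.Tomita.fR_const_mul _ hpc, P132.Tomita.fR_const_mul _ hpc, ← smul_sub, norm_smul,
      Complex.norm_exp_ofReal_mul_I, one_mul]
    exact (hK H M N ξ ε hclose (-c)).trans hKe
  have hside : ∀ A : VonNeumannAlgebra H, ‖fR A ξ (win a t c) - fR A ξ L‖ ≤ 3 * η / 8 := fun A => by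
    rw [← P132.Tomita.fR_sub hWc hLc]
    exact P132.Tomita.norm_fR_le (by positivity) hsup
  calc ‖fR M ξ (win a t c) - fR N ξ (win a t c)‖
      ≤ ‖fR M ξ (win a t c) - fR M ξ L‖ + ‖fR M ξ L - fR N ξ L‖ +
          ‖fR N ξ L - fR N ξ (win a t c)‖ :=
        (norm_sub_le_norm_sub_add_norm_sub _ (fR N ξ L) _).trans
          (add_le_add (norm_sub_le_norm_sub_add_norm_sub _ (fR M ξ L) _) le_rfl)
    _ ≤ 3 * η / 8 + η / 4 + 3 * η / 8 :=
        add_le_add (add_le_add (hside M) hmid) (by rw [norm_sub_rev]; exact hside N)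
    _ = η := by ring

lemma fR_finsum (M : VonNeumannAlgebra H) (ξ : H) (s : Finset ℕ) (b : ℕ → ℂ) {f : ℕ → ℝ → ℂ}
    (hf : ∀ i, ContinuousOn (f i) (Icc 0 2)) :
    fR M ξ (fun r => ∑ i ∈ s, b i * f i r) = ∑ i ∈ s, b i • fR M ξ (f i) := by
  classical
  induction s using Finset.induction with
  | empty => simpa using P132.Tomita.fR_const (M := M) (Ω := ξ) 0
  | insert i s hi ih =>
    simp only [Finset.sum_insert hi]
    rw [P132.Tomita.fR_add (f := fun r => b i * f i r) (g := fun r => ∑ j ∈ s, b j * f j r)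
      (continuousOn_const.mul (hf i))
      (continuousOn_finsetSum _ fun j _ => continuousOn_const.mul (hf j)),
      P132.Tomita.fR_const_mul _ (hf i), ih]

/-- Wide windows. -/
lemma norm_wide_sub_le {M N : VonNeumannAlgebra H} {ξ : H} {ε : ℝ} (h : LogiClose M N ξ ε)
    {a : ℝ} (ha : 0 < a) {n : ℕ} (hn : bell a n ≤ 1 / a) (c : ℝ) :
    ‖fR M ξ (win a 0 c) - fR N ξ (win a 0 c)‖ ≤ 12 / a + 2 * ε := by
  have hcc : ContinuousOn (comb a c n) (Icc 0 2) :=
    continuousOn_finsetSum _ fun i _ => continuousOn_const.mul (continuousOn_logiC _)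
  have hside : ∀ A : VonNeumannAlgebra H, ‖fR A ξ (win a 0 c) - fR A ξ (comb a c n)‖ ≤ 6 / a :=
    fun A => by
      rw [← P132.Tomita.fR_sub (continuousOn_win ha 0 c) hcc]
      exact P132.Tomita.norm_fR_le (by positivity) fun r hr => norm_win_sub_comb_le ha hn c hr
  have hmid : ‖fR M ξ (comb a c n) - fR N ξ (comb a c n)‖ ≤ 2 * ε := by
    unfold comb
    rw [fR_finsum M ξ _ _ fun i => continuousOn_logiC _,
      fR_finsum N ξ _ _ fun i => continuousOn_logiC _, ← Finset.sum_sub_distrib]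
    refine (norm_sum_le_of_le (f := _) _ fun i _ => ?_).trans ((Finset.sum_mul _ _ ε).symm.le.trans
      (mul_le_mul_of_nonneg_right (sum_abs_incr_le ha n) ((norm_nonneg _).trans (h 0))))
    rw [← smul_sub, norm_smul, Complex.norm_real, Real.norm_eq_abs]
    exact mul_le_mul_of_nonneg_left (h _) (abs_nonneg _)
  calc ‖fR M ξ (win a 0 c) - fR N ξ (win a 0 c)‖
      ≤ ‖fR M ξ (win a 0 c) - fR M ξ (comb a c n)‖ + ‖fR M ξ (comb a c n) - fR N ξ (comb a c n)‖ +
          ‖fR N ξ (comb a c n) - fR N ξ (win a 0 c)‖ :=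
        (norm_sub_le_norm_sub_add_norm_sub _ (fR N ξ (comb a c n)) _).trans
          (add_le_add (norm_sub_le_norm_sub_add_norm_sub _ (fR M ξ (comb a c n)) _) le_rfl)
    _ ≤ 6 / a + 2 * ε + 6 / a :=
        add_le_add (add_le_add (hside M) hmid) (by rw [norm_sub_rev]; exact hside N)
    _ = 12 / a + 2 * ε := by ring

/-- Close logistic functions give close windows, uniformly in the centre, at width one for the
phases in `[-1, 1]` and at every dyadic width without phase. -/
theorem exists_window_close {η : ℝ} (hη : 0 < η) : ∃ ε : ℝ, 0 < ε ∧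
    ∀ (H : Type u) [NormedAddCommGroup H] [InnerProductSpace ℂ H] [CompleteSpace H]
      (M N : VonNeumannAlgebra H) (ξ : H),
      (∀ c : ℝ, ‖fR M ξ (fun r => (logi c r : ℂ)) - fR N ξ (fun r => (logi c r : ℂ))‖ ≤ ε) →
      ∀ (k : ℕ) (s : ℝ), |s| ≤ 1 → (s = 0 ∨ k = 0) → ∀ c : ℝ,
        ‖fR M ξ (win ((2 : ℝ) ^ k) s c) - fR N ξ (win ((2 : ℝ) ^ k) s c)‖ ≤ η := by
  obtain ⟨K, hK⟩ := pow_unbounded_of_one_lt (24 / η) (by norm_num : (1 : ℝ) < 2)
  obtain ⟨J, hJ⟩ : ∃ J : ℕ, 4 / η ≤ J ∧ 0 < J :=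
    ⟨⌈4 / η⌉₊ + 1, (Nat.le_ceil _).trans (by push_cast; linarith), Nat.succ_pos _⟩
  have hsmall := (Filter.eventually_all_finset (Finset.range (2 * J + 1))).2 fun j _ =>
    exists_fixed_close.{u} (a := 1) one_pos (((j : ℝ) - J) / J) hη
  have hwidth := (Filter.eventually_all_finset (Finset.range K)).2 fun k _ =>
    exists_fixed_close.{u} (a := (2 : ℝ) ^ k) (by positivity) 0 hη
  obtain ⟨ε, ⟨h1, h2⟩, hε0, hεη⟩ := ((hsmall.and hwidth).and
    (Ioo_mem_nhdsGT (show 0 < η / 4 by positivity))).exists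
  refine ⟨ε, hε0, fun H _ _ _ M N ξ hclose k s hs hsk c => ?_⟩
  rcases hsk with rfl | rfl
  · by_cases hk : k < K
    · exact h2 k (Finset.mem_range.2 hk) H M N ξ hclose 0 c (by rw [sub_self, abs_zero]; positivity)
    · have ha : (0 : ℝ) < 2 ^ k := by positivity
      have hn : bell ((2 : ℝ) ^ k) ((4 ^ k : ℕ) : ℝ) ≤ 1 / 2 ^ k := by
        have e : ((4 ^ k : ℕ) : ℝ) / 2 ^ k = 2 ^ k := by
          rw [Nat.cast_pow, ← div_pow]; norm_num
        rw [bell, e, Real.exp_neg, one_div]
        refine inv_anti₀ ha (le_trans ?_ (Real.add_one_le_exp _))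
        nlinarith [one_le_pow₀ (by norm_num : (1 : ℝ) ≤ 2) (n := k)]
      refine (norm_wide_sub_le hclose ha hn c).trans ?_
      have h12 : 12 / (2 : ℝ) ^ k ≤ η / 2 := by
        have : (2 : ℝ) ^ K ≤ 2 ^ k := pow_le_pow_right₀ (by norm_num) (by omega)
        rw [div_lt_iff₀ hη] at hK
        rw [div_le_iff₀ ha]
        nlinarith
      linarith
  · have hJ0 : (0 : ℝ) < J := by exact_mod_cast hJ.2
    obtain ⟨hs1, hs2⟩ := abs_le.1 hs
    set j := ⌊(s + 1) * J⌋₊ with hj
    have hnn : 0 ≤ (s + 1) * J := mul_nonneg (by linarith) hJ0.le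
    have hjle : j ≤ 2 * J := by
      have := Nat.floor_le hnn
      rw [← @Nat.cast_le ℝ]
      push_cast
      nlinarith
    rw [pow_zero]
    refine h1 j (Finset.mem_range.2 (by omega)) H M N ξ hclose s c ?_
    have f1 := Nat.floor_le hnn
    have f2 := Nat.lt_floor_add_one ((s + 1) * J)
    have e : s - ((j : ℝ) - J) / J = ((s + 1) * J - j) / J := by field_simp; ring
    rw [e, abs_of_nonneg (div_nonneg (by linarith) hJ0.le), mul_one, div_le_div_iff₀ hJ0 (by norm_num)]
    have := hJ.1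
    rw [div_le_iff₀ hη] at this
    nlinarith

end Operators

end Vale.Agent.P096.AT.Means
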