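import Vale.Agent.P096.AT.Means.Windows

/-!
# The truncated averages of products of windows

`TL N M ξ a s L` is a multiple of the integral over `c` in `[-L, L]` of the window at `c` of the
modular operator of `N` times the adjoint of that of `M`. The main bound compares the inner product
of two such columns with the same for `M = N`.
-/

noncomputable section

namespace Vale.Agent.P096.AT.Means

open Complex Set Filter Topology MeasureTheory
open Vale.Agent.P132.Tomita (fR sq qd ell inner_star_left)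
open scoped InnerProductSpace ComplexConjugate Real

universe u

variable {H : Type u} [NormedAddCommGroup H] [InnerProductSpace ℂ H] [CompleteSpace H]

/-- The normalising constant. -/
def cst (a : ℝ) : ℝ := √(2 / π) / a

lemma cst_nonneg {a : ℝ} (ha : 0 < a) : 0 ≤ cst a := by unfold cst; positivity

lemma cst_mul_mass {a : ℝ} (ha : 0 < a) : cst a * (a * √(π / 2)) = 1 := by
  rw [cst, div_mul_eq_mul_div, mul_left_comm, ← Real.sqrt_mul (by positivity),
    show 2 / π * (π / 2) = 1 by field_simp, Real.sqrt_one, mul_one, div_self ha.ne']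

variable (N M : VonNeumannAlgebra H) (ξ : H)

/-- The window of `N` at `c` times the adjoint of that of `M`. -/
def op (a s c : ℝ) : H →L[ℂ] H := fR N ξ (win a s c) * star (fR M ξ (win a s c))

/-- The truncated average. -/
def TL (a s : ℝ) (L : ℕ) : H →L[ℂ] H := (cst a : ℂ) • ∫ c in Icc (-(L : ℝ)) L, op N M ξ a s c

variable {N M ξ}

lemma norm_fR_win_le (a s c : ℝ) : ‖fR M ξ (win a s c)‖ ≤ 1 :=
  P132.Tomita.norm_fR_le zero_le_one fun r _ => (norm_win a s c r).le.trans (gw_le_one a c r)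

lemma continuous_fR_win {a : ℝ} (ha : 0 < a) (s : ℝ) :
    Continuous fun c => fR M ξ (win a s c) :=
  continuousOn_univ.1 (P132.Tomita.continuous_fR_param (continuousOn_win_param ha s))

lemma continuous_op {a : ℝ} (ha : 0 < a) (s : ℝ) : Continuous fun c => op N M ξ a s c :=
  (continuous_fR_win ha s).mul (continuous_star.comp (continuous_fR_win ha s))

lemma integrable_op {a : ℝ} (ha : 0 < a) (s : ℝ) (L : ℕ) :
    IntegrableOn (fun c => op N M ξ a s c) (Icc (-(L : ℝ)) L) :=
  (continuous_op ha s).integrableOn_Icc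

lemma TL_apply {a : ℝ} (ha : 0 < a) (s : ℝ) (L : ℕ) (v : H) :
    TL N M ξ a s L v = (cst a : ℂ) • ∫ c in Icc (-(L : ℝ)) L, op N M ξ a s c v := by
  rw [TL, smul_apply, ContinuousLinearMap.integral_apply (integrable_op ha s L)]

lemma star_TL (a s : ℝ) (L : ℕ) : star (TL N M ξ a s L) = TL M N ξ a s L := by
  have h := ((starL' ℝ : (H →L[ℂ] H) ≃L[ℝ] (H →L[ℂ] H))).integral_comp_comm (μ := volume.restrict (Icc (-(L : ℝ)) L))
    (fun c => op N M ξ a s c)
  simp only [TL, star_smul, Complex.star_def, Complex.conj_ofReal]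
  congr 1
  simpa [starL', op] using h.symm

omit [CompleteSpace H] in
/-- An operator bound from matrix coefficients at unit vectors. -/
lemma norm_le_of_unit {A : H →L[ℂ] H} {C : ℝ} (hC : 0 ≤ C)
    (h : ∀ u v : H, ‖u‖ = 1 → ‖v‖ = 1 → ‖⟪u, A v⟫_ℂ‖ ≤ C) : ‖A‖ ≤ C := by
  refine ContinuousLinearMap.opNorm_le_bound _ hC fun v => ?_
  rcases eq_or_ne (A v) 0 with h0 | h0
  · rw [h0, norm_zero]; positivity
  have hv : v ≠ 0 := fun e => h0 (by rw [e, map_zero])
  have hpv : 0 < ‖v‖ := norm_pos_iff.2 hv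
  have hpw : 0 < ‖A v‖ := norm_pos_iff.2 h0
  have := h ((‖A v‖⁻¹ : ℂ) • A v) ((‖v‖⁻¹ : ℂ) • v)
    (by simp [norm_smul, hpw.ne']) (by simp [norm_smul, hpv.ne'])
  rw [map_smul, inner_smul_left, inner_smul_right, inner_self_eq_norm_sq_to_K] at this
  simp only [map_inv₀, Complex.conj_ofReal, norm_mul, norm_inv, norm_pow, Complex.norm_real,
    norm_norm, RCLike.ofReal_eq_complex_ofReal] at this
  field_simp at this
  linarith

omit [CompleteSpace H] in
lemma inner_integral_left [CompleteSpace H] {μ : Measure ℝ} {f : ℝ → H} (hf : Integrable f μ)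
    (v : H) : ⟪∫ c, f c ∂μ, v⟫_ℂ = ∫ c, ⟪f c, v⟫_ℂ ∂μ := by
  rw [← inner_conj_symm, ← integral_inner hf, ← integral_conj]
  simp

lemma sq_norm_star_win {a : ℝ} (ha : 0 < a) (s c : ℝ) (v : H) :
    ‖star (fR M ξ (win a s c)) v‖ ^ 2 =
      (⟪v, fR M ξ (fun r => ((gw a c r ^ 2 : ℝ) : ℂ)) v⟫_ℂ).re := by
  have hc := continuousOn_win ha s c
  have e : fR M ξ (win a s c) * star (fR M ξ (win a s c)) =
      fR M ξ (fun r => ((gw a c r ^ 2 : ℝ) : ℂ)) := by
    have hc' : ContinuousOn (fun r => conj (win a s c r)) (Icc 0 2) :=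
      Complex.continuous_conj.comp_continuousOn hc
    rw [P132.Tomita.fR_star, ← P132.Tomita.fR_mul hc hc']
    refine P132.Tomita.fR_congr fun r _ => ?_
    rw [Complex.mul_conj', norm_win, Complex.ofReal_pow]
  rw [← inner_self_eq_norm_sq (𝕜 := ℂ) (star (fR M ξ (win a s c)) v), inner_star_left,
    ← mul_apply_eq_comp, e]
  rfl

lemma integral_gauss_le {b : ℝ} (hb : 0 < b) (x : ℝ) (L : ℕ) :
    ∫ c in Icc (-(L : ℝ)) L, Real.exp (-b * (x - c) ^ 2) ≤ √(π / b) := by
  have hi : Integrable fun c => Real.exp (-b * (x - c) ^ 2) :=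
    (integrable_exp_neg_mul_sq hb).comp_sub_left x
  refine (setIntegral_le_integral hi (Eventually.of_forall fun c => (Real.exp_pos _).le)).trans ?_
  rw [integral_sub_left_eq_self (fun y => Real.exp (-b * y ^ 2)) volume x, integral_gaussian]

/-- The windows of one side form a column of bounded mass. -/
lemma mass_le {a : ℝ} (ha : 0 < a) (s : ℝ) (L : ℕ) (v : H) :
    ∫ c in Icc (-(L : ℝ)) L, ‖star (fR M ξ (win a s c)) v‖ ^ 2 ≤ a * √(π / 2) * ‖v‖ ^ 2 := by
  set I := Icc (-(L : ℝ)) L with hI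
  set F : ℝ → ℂ → ℂ := fun c z => ((gw a c z.re ^ 2 : ℝ) : ℂ) with hF
  have hFc : ContinuousOn (Function.uncurry F) (I ×ˢ spectrum ℂ (P132.Tomita.R M ξ)) := by
    refine Complex.continuous_ofReal.comp_continuousOn (ContinuousOn.pow ?_ 2)
    exact (continuousOn_gw_param ha).comp (f := fun p : ℝ × ℂ => (p.1, p.2.re)) (by fun_prop)
      fun p hp => ⟨mem_univ _, (P132.Tomita.re_mem_Icc hp.2).1⟩
  have hbd : ∀ c z, ‖F c z‖ ≤ 1 := fun c z => by
    rw [hF, Complex.norm_real, Real.norm_of_nonneg (sq_nonneg _)]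
    exact pow_le_one₀ (gw_nonneg a c _) (gw_le_one a c _)
  have hfin : HasFiniteIntegral (fun _ : ℝ => (1 : ℝ)) (volume.restrict I) :=
    (integrableOn_const (by simp [hI])).hasFiniteIntegral
  have hP := cfc_setIntegral (μ := volume) measurableSet_Icc F (fun _ => 1) (P132.Tomita.R M ξ) hFc
    (Eventually.of_forall fun c z _ => hbd c z) hfin P132.Tomita.isStarNormal_R
  have hcw : ∀ c, fR M ξ (fun r => ((gw a c r ^ 2 : ℝ) : ℂ)) =
      cfc (F c) (P132.Tomita.R M ξ) := fun c => rfl
  have hint : IntegrableOn (fun c => cfc (F c) (P132.Tomita.R M ξ)) I :=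
    integrableOn_cfc measurableSet_Icc F (fun _ => 1) _ hFc
      (Eventually.of_forall fun c z _ => hbd c z) hfin P132.Tomita.isStarNormal_R
  have hint' : IntegrableOn (fun c => cfc (F c) (P132.Tomita.R M ξ) v) I :=
    ContinuousLinearMap.integrable_comp (ContinuousLinearMap.apply ℂ H v) hint
  calc ∫ c in I, ‖star (fR M ξ (win a s c)) v‖ ^ 2
      = ∫ c in I, RCLike.re ⟪v, cfc (F c) (P132.Tomita.R M ξ) v⟫_ℂ := by
        simp only [sq_norm_star_win ha, hcw]; rfl
    _ = RCLike.re ⟪v, cfc (fun z => ∫ c in I, F c z) (P132.Tomita.R M ξ) v⟫_ℂ := by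
        rw [integral_re (Integrable.const_inner v hint'), integral_inner hint',
          ← ContinuousLinearMap.integral_apply hint, ← hP]
    _ ≤ ‖⟪v, cfc (fun z => ∫ c in I, F c z) (P132.Tomita.R M ξ) v⟫_ℂ‖ := RCLike.re_le_norm _
    _ ≤ ‖v‖ * (a * √(π / 2) * ‖v‖) := by
        refine (norm_inner_le_norm _ _).trans (mul_le_mul_of_nonneg_left ?_ (norm_nonneg _))
        refine ContinuousLinearMap.le_of_opNorm_le _ (norm_cfc_le (by positivity) fun z hz => ?_) v
        obtain ⟨hz, -⟩ := P132.Tomita.re_mem_Icc hz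
        simp only [hF]
        rw [integral_complex_ofReal, Complex.norm_real,
          Real.norm_of_nonneg (setIntegral_nonneg measurableSet_Icc fun c _ => sq_nonneg _)]
        by_cases h : z.re ∈ Ioo (0 : ℝ) 2
        · simp only [gw_of_mem a _ h]
          refine le_trans (le_of_eq (integral_congr_ae (Eventually.of_forall fun c => ?_)))
            ((integral_gauss_le (b := 2 / a ^ 2) (by positivity) (ell z.re) L).trans (le_of_eq ?_))
          · simp only [← Real.exp_nat_mul]
            congr 1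
            push_cast
            ring
          · rw [div_div_eq_mul_div, mul_comm π, mul_div_assoc,
              Real.sqrt_mul (sq_nonneg a), Real.sqrt_sq ha.le]
        · have h0 : ∀ c, gw a c z.re = 0 := fun c => by
            rcases eq_or_lt_of_le hz.1 with h' | h'
            · rw [← h', gw_zero]
            · rw [show z.re = 2 by by_contra hne; exact h ⟨h', lt_of_le_of_ne hz.2 hne⟩, gw_two]
          simp only [h0]
          simp
          positivity
    _ = a * √(π / 2) * ‖v‖ ^ 2 := by ring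

lemma inner_op (a s c : ℝ) (u v : H) : ⟪u, op N M ξ a s c v⟫_ℂ =
    ⟪star (fR N ξ (win a s c)) u, star (fR M ξ (win a s c)) v⟫_ℂ := by
  rw [op, mul_apply_eq_comp, inner_star_left]

lemma norm_TL_le {a : ℝ} (ha : 0 < a) (s : ℝ) (L : ℕ) : ‖TL N M ξ a s L‖ ≤ 1 := by
  refine norm_le_of_unit zero_le_one fun u v hu hv => ?_
  set I := Icc (-(L : ℝ)) L
  have hcw : ∀ (A : VonNeumannAlgebra H) (w : H),
      Continuous fun c => star (fR A ξ (win a s c)) w := fun A w =>
    (ContinuousLinearMap.apply ℂ H w).continuous.comp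
      (continuous_star.comp (continuous_fR_win ha s))
  have hiv : IntegrableOn (fun c => op N M ξ a s c v) I :=
    ContinuousLinearMap.integrable_comp (ContinuousLinearMap.apply ℂ H v) (integrable_op ha s L)
  rw [TL_apply ha, inner_smul_right, ← integral_inner hiv, norm_mul, Complex.norm_real,
    Real.norm_of_nonneg (cst_nonneg ha)]
  have h1 : ‖∫ c in I, ⟪u, op N M ξ a s c v⟫_ℂ‖ ≤
      ∫ c in I, (‖star (fR N ξ (win a s c)) u‖ ^ 2 + ‖star (fR M ξ (win a s c)) v‖ ^ 2) / 2 := by
    refine norm_integral_le_of_norm_le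
      (Continuous.integrableOn_Icc ((((hcw N u).norm.pow 2).add ((hcw M v).norm.pow 2)).div_const 2))
      (Eventually.of_forall fun c => ?_)
    rw [inner_op]
    refine (norm_inner_le_norm _ _).trans ?_
    nlinarith [sq_nonneg (‖star (fR N ξ (win a s c)) u‖ - ‖star (fR M ξ (win a s c)) v‖)]
  refine (mul_le_mul_of_nonneg_left h1 (cst_nonneg ha)).trans ?_
  have i1 : Integrable (fun c => ‖star (fR N ξ (win a s c)) u‖ ^ 2) (volume.restrict I) :=
    ((hcw N u).norm.pow 2).integrableOn_Icc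
  have i2 : Integrable (fun c => ‖star (fR M ξ (win a s c)) v‖ ^ 2) (volume.restrict I) :=
    ((hcw M v).norm.pow 2).integrableOn_Icc
  rw [integral_div, integral_add i1 i2]
  calc _ ≤ cst a * ((a * √(π / 2) * ‖u‖ ^ 2 + a * √(π / 2) * ‖v‖ ^ 2) / 2) := by
        refine mul_le_mul_of_nonneg_left ?_ (cst_nonneg ha)
        linarith [mass_le (M := N) (ξ := ξ) ha s L u, mass_le (M := M) (ξ := ξ) ha s L v]
    _ = 1 := by rw [hu, hv]; linear_combination cst_mul_mass ha

lemma norm_middle_le {a b : ℝ} (ha : 0 < a) (hb : 0 < b) (s t c d : ℝ) {ω : ℝ}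
    (h1 : ‖fR M ξ (win a s c) - fR N ξ (win a s c)‖ ≤ ω)
    (h2 : ‖fR M ξ (win b t d) - fR N ξ (win b t d)‖ ≤ ω) :
    ‖star (fR N ξ (win a s c)) * fR N ξ (win b t d) -
        star (fR M ξ (win a s c)) * fR M ξ (win b t d)‖ ≤
      2 * √ω * Real.exp (-(1 / (2 * (a ^ 2 + b ^ 2))) * (c - d) ^ 2) := by
  set E := star (fR N ξ (win a s c)) * fR N ξ (win b t d) -
    star (fR M ξ (win a s c)) * fR M ξ (win b t d) with hE
  have hω : 0 ≤ ω := (norm_nonneg _).trans h1
  have e1 : ‖E‖ ≤ 2 * ω := by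
    have he : E = star (fR N ξ (win a s c)) * (fR N ξ (win b t d) - fR M ξ (win b t d)) +
        star (fR N ξ (win a s c) - fR M ξ (win a s c)) * fR M ξ (win b t d) := by
      rw [hE, star_sub, mul_sub, sub_mul]; abel
    rw [he, two_mul]
    refine (norm_add_le _ _).trans (add_le_add ((norm_mul_le _ _).trans ?_)
      ((norm_mul_le _ _).trans ?_))
    · rw [norm_sub_rev]
      exact (mul_le_of_le_one_left (norm_nonneg _) (by rw [norm_star]; exact norm_fR_win_le a s c)).trans h2
    · rw [norm_star, norm_sub_rev]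
      exact (mul_le_of_le_one_right (norm_nonneg _) (norm_fR_win_le b t d)).trans h1
  have e2 : ‖E‖ ≤ 2 * Real.exp (-(c - d) ^ 2 / (a ^ 2 + b ^ 2)) := by
    have hb' : ∀ A : VonNeumannAlgebra H, ‖star (fR A ξ (win a s c)) * fR A ξ (win b t d)‖ ≤
        Real.exp (-(c - d) ^ 2 / (a ^ 2 + b ^ 2)) := fun A => by
      have hc' : ContinuousOn (fun r => conj (win a s c r)) (Icc 0 2) :=
        Complex.continuous_conj.comp_continuousOn (continuousOn_win ha s c)
      rw [P132.Tomita.fR_star, ← P132.Tomita.fR_mul hc' (continuousOn_win hb t d)]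
      refine P132.Tomita.norm_fR_le (Real.exp_pos _).le fun r hr => ?_
      rw [norm_mul, RCLike.norm_conj, norm_win, norm_win]
      exact gw_mul_le ha hb c d r hr
    rw [two_mul]
    exact (norm_sub_le _ _).trans (add_le_add (hb' N) (hb' M))
  refine le_of_pow_le_pow_left₀ two_ne_zero (by positivity) ?_
  calc ‖E‖ ^ 2 ≤ (2 * ω) * (2 * Real.exp (-(c - d) ^ 2 / (a ^ 2 + b ^ 2))) := by
        rw [pow_two]; exact mul_le_mul e1 e2 (norm_nonneg _) (by positivity)
    _ = _ := by
        rw [mul_pow, mul_pow, Real.sq_sqrt hω, ← Real.exp_nat_mul]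
        rw [show ((2 : ℕ) : ℝ) * (-(1 / (2 * (a ^ 2 + b ^ 2))) * (c - d) ^ 2) =
          -(c - d) ^ 2 / (a ^ 2 + b ^ 2) by field_simp; push_cast; ring]
        ring

/-- Two columns compare with the same for `M = N`. -/
theorem norm_TL_inner_sub_le {a b : ℝ} (ha : 0 < a) (hb : 0 < b) (hab : a ≤ 2 * b) (hba : b ≤ 2 * a)
    (s t : ℝ) {ω : ℝ} (h1 : ∀ c, ‖fR M ξ (win a s c) - fR N ξ (win a s c)‖ ≤ ω)
    (h2 : ∀ c, ‖fR M ξ (win b t c) - fR N ξ (win b t c)‖ ≤ ω) (L : ℕ) {u v : H} (hu : ‖u‖ = 1)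
    (hv : ‖v‖ = 1) :
    ‖⟪TL N M ξ a s L u, TL N M ξ b t L v⟫_ℂ - ⟪TL M M ξ a s L u, TL M M ξ b t L v⟫_ℂ‖ ≤
      16 * √ω := by
  have hω : 0 ≤ ω := (norm_nonneg _).trans (h1 0)
  set I := Icc (-(L : ℝ)) L
  set P := (volume.restrict I).prod (volume.restrict I)
  set g : ℝ → H := fun c => star (fR M ξ (win a s c)) u
  set h : ℝ → H := fun d => star (fR M ξ (win b t d)) v
  set K : ℝ → ℝ := fun x => Real.exp (-(1 / (2 * (a ^ 2 + b ^ 2))) * x ^ 2)
  have hg : Continuous g := (ContinuousLinearMap.apply ℂ H u).continuous.comp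
    (continuous_star.comp (continuous_fR_win ha s))
  have hh : Continuous h := (ContinuousLinearMap.apply ℂ H v).continuous.comp
    (continuous_star.comp (continuous_fR_win hb t))
  have hcu : ∀ A : VonNeumannAlgebra H, Continuous fun c => op A M ξ a s c u := fun A =>
    (ContinuousLinearMap.apply ℂ H u).continuous.comp (continuous_op ha s)
  have hcv : ∀ A : VonNeumannAlgebra H, Continuous fun d => op A M ξ b t d v := fun A =>
    (ContinuousLinearMap.apply ℂ H v).continuous.comp (continuous_op hb t)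
  have intP : ∀ {E : Type} [NormedAddCommGroup E] {f : ℝ × ℝ → E}, Continuous f → Integrable f P := by
    intro E _ f hf
    simp only [P, Measure.prod_restrict]
    exact hf.continuousOn.integrableOn_compact (isCompact_Icc.prod isCompact_Icc)
  have hcF : ∀ A : VonNeumannAlgebra H,
      Continuous fun p : ℝ × ℝ => ⟪op A M ξ a s p.1 u, op A M ξ b t p.2 v⟫_ℂ := fun A =>
    ((hcu A).comp continuous_fst).inner ((hcv A).comp continuous_snd)
  have hexp : ∀ A : VonNeumannAlgebra H, ⟪TL A M ξ a s L u, TL A M ξ b t L v⟫_ℂ =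
      ((cst a * cst b : ℝ) : ℂ) * ∫ p, ⟪op A M ξ a s p.1 u, op A M ξ b t p.2 v⟫_ℂ ∂P := fun A => by
    rw [TL_apply ha, TL_apply hb, inner_smul_left, inner_smul_right, Complex.conj_ofReal,
      inner_integral_left (hcu A).integrableOn_Icc, integral_prod _ (intP (hcF A))]
    rw [← mul_assoc, Complex.ofReal_mul]
    congr 1
    exact integral_congr_ae (Eventually.of_forall fun c =>
      (integral_inner (hcv A).integrableOn_Icc _).symm)
  have hE : ∀ c d, ‖⟪op N M ξ a s c u, op N M ξ b t d v⟫_ℂ - ⟪op M M ξ a s c u, op M M ξ b t d v⟫_ℂ‖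
      ≤ √ω * (K (c - d) * ‖g c‖ ^ 2) + √ω * (K (c - d) * ‖h d‖ ^ 2) := fun c d => by
    have e : ∀ A : VonNeumannAlgebra H, ⟪op A M ξ a s c u, op A M ξ b t d v⟫_ℂ =
        ⟪g c, (star (fR A ξ (win a s c)) * fR A ξ (win b t d)) (h d)⟫_ℂ := fun A => by
      simp only [op, mul_apply_eq_comp, g, h]
      rw [← inner_star_left (star (fR A ξ (win a s c))), star_star]
    rw [e, e, ← inner_sub_right, ← sub_apply]
    refine (norm_inner_le_norm _ _).trans ?_
    refine (mul_le_mul_of_nonneg_left ((ContinuousLinearMap.le_opNorm _ _).trans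
      (mul_le_mul_of_nonneg_right (norm_middle_le ha hb s t c d (h1 c) (h2 d)) (norm_nonneg _)))
      (norm_nonneg _)).trans ?_
    have h0 : 0 ≤ √ω * K (c - d) := by positivity
    nlinarith [mul_nonneg h0 (sq_nonneg (‖g c‖ - ‖h d‖))]
  have hKc : Continuous K := by fun_prop
  have hc1 : Continuous fun p : ℝ × ℝ => K (p.1 - p.2) * ‖g p.1‖ ^ 2 := by fun_prop
  have hc2 : Continuous fun p : ℝ × ℝ => K (p.1 - p.2) * ‖h p.2‖ ^ 2 := by fun_prop
  set Q := √(π / (1 / (2 * (a ^ 2 + b ^ 2))))
  have hQ0 : 0 ≤ Q := Real.sqrt_nonneg _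
  have hQ : ∀ x, ∫ y in I, K (x - y) ≤ Q := fun x =>
    integral_gauss_le (b := 1 / (2 * (a ^ 2 + b ^ 2))) (by positivity) x L
  have hQ' : ∀ y, ∫ x in I, K (x - y) ≤ Q := fun y => by
    refine le_trans (le_of_eq (integral_congr_ae (Eventually.of_forall fun x => ?_))) (hQ y)
    simp only [K, show (x - y) ^ 2 = (y - x) ^ 2 by ring]
  have b1 : ∫ p, K (p.1 - p.2) * ‖g p.1‖ ^ 2 ∂P ≤ Q * (a * √(π / 2)) := by
    rw [integral_prod _ (intP hc1)]
    calc ∫ c in I, ∫ d in I, K (c - d) * ‖g c‖ ^ 2 ≤ ∫ c in I, Q * ‖g c‖ ^ 2 := by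
          refine integral_mono (intP hc1).integral_prod_left
            ((hg.norm.pow 2).const_mul Q).integrableOn_Icc fun c => ?_
          rw [integral_mul_const]
          exact mul_le_mul_of_nonneg_right (hQ c) (sq_nonneg _)
      _ ≤ Q * (a * √(π / 2)) := by
          rw [integral_const_mul]
          refine mul_le_mul_of_nonneg_left ?_ hQ0
          simpa [hu] using mass_le (M := M) (ξ := ξ) ha s L u
  have b2 : ∫ p, K (p.1 - p.2) * ‖h p.2‖ ^ 2 ∂P ≤ Q * (b * √(π / 2)) := by
    rw [integral_prod_symm _ (intP hc2)]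
    calc ∫ d in I, ∫ c in I, K (c - d) * ‖h d‖ ^ 2 ≤ ∫ d in I, Q * ‖h d‖ ^ 2 := by
          refine integral_mono (intP hc2).integral_prod_right
            ((hh.norm.pow 2).const_mul Q).integrableOn_Icc fun d => ?_
          rw [integral_mul_const]
          exact mul_le_mul_of_nonneg_right (hQ' d) (sq_nonneg _)
      _ ≤ Q * (b * √(π / 2)) := by
          rw [integral_const_mul]
          refine mul_le_mul_of_nonneg_left ?_ hQ0
          simpa [hv] using mass_le (M := M) (ξ := ξ) hb t L v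
  rw [hexp, hexp, ← mul_sub, ← integral_sub (intP (hcF N)) (intP (hcF M)), norm_mul,
    Complex.norm_real, Real.norm_of_nonneg (mul_nonneg (cst_nonneg ha) (cst_nonneg hb))]
  refine (mul_le_mul_of_nonneg_left ((norm_integral_le_of_norm_le
    (((intP hc1).const_mul √ω).add ((intP hc2).const_mul √ω))
    (Eventually.of_forall fun p => hE p.1 p.2))) (mul_nonneg (cst_nonneg ha) (cst_nonneg hb))).trans ?_
  rw [Pi.add_def, integral_add ((intP hc1).const_mul _) ((intP hc2).const_mul _), integral_const_mul,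
    integral_const_mul]
  calc _ ≤ cst a * cst b * (√ω * (Q * (a * √(π / 2))) + √ω * (Q * (b * √(π / 2)))) :=
        mul_le_mul_of_nonneg_left (add_le_add (mul_le_mul_of_nonneg_left b1 (Real.sqrt_nonneg _))
          (mul_le_mul_of_nonneg_left b2 (Real.sqrt_nonneg _)))
          (mul_nonneg (cst_nonneg ha) (cst_nonneg hb))
    _ = √ω * (Q * (cst a + cst b)) := by
        linear_combination (√ω * Q * cst b) * cst_mul_mass ha + (√ω * Q * cst a) * cst_mul_mass hb
    _ ≤ √ω * 16 := by
        refine mul_le_mul_of_nonneg_left ?_ (Real.sqrt_nonneg _)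
        have eQ : Q = √(2 * π) * √(a ^ 2 + b ^ 2) := by
          rw [← Real.sqrt_mul (by positivity)]; simp only [Q]; congr 1; field_simp
        have e2 : √(2 * π) * √(2 / π) = 2 := by
          rw [← Real.sqrt_mul (by positivity), show 2 * π * (2 / π) = 2 ^ 2 by field_simp,
            Real.sqrt_sq (by norm_num)]
        have e3 : Q * (cst a + cst b) = 2 * (√(a ^ 2 + b ^ 2) * ((a + b) / (a * b))) := by
          rw [eQ, cst, cst]
          field_simp
          linear_combination (a + b) * e2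
        have e4 : √(a ^ 2 + b ^ 2) ≤ a + b := Real.sqrt_le_iff.2 ⟨by positivity, by nlinarith⟩
        have e5 : (a + b) * ((a + b) / (a * b)) ≤ 8 := by
          rw [← mul_div_assoc, div_le_iff₀ (by positivity)]
          nlinarith [mul_le_mul_of_nonneg_left hab ha.le, mul_le_mul_of_nonneg_left hba hb.le]
        rw [e3]
        have := mul_le_mul_of_nonneg_right e4 (by positivity : (0 : ℝ) ≤ (a + b) / (a * b))
        linarith
    _ = 16 * √ω := mul_comm _ _

/-- The decay of the windows on the range of the square root of `R (2 - R)`. -/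
lemma gw_mul_sq_le {a : ℝ} (ha : 0 < a) (c : ℝ) {r : ℝ} (hr : r ∈ Icc (0 : ℝ) 2) :
    gw a c r * √(qd r) ≤ 2 * Real.exp (a ^ 2 / 16) * Real.exp (-|c| / 2) := by
  by_cases h : r ∈ Ioo (0 : ℝ) 2
  · have hq : qd r ≤ 4 * Real.exp (-|ell r|) := by
      have h2 : 0 < 2 - r := by linarith [h.2]
      have hp : 0 < (2 - r) / r := div_pos h2 h.1
      rcases le_total r 1 with h' | h'
      · have hge : 1 ≤ (2 - r) / r := by rw [le_div_iff₀ h.1]; linarith
        rw [ell, abs_of_nonneg (Real.log_nonneg hge), Real.exp_neg, Real.exp_log hp, inv_div,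
          qd, ← mul_div_assoc, le_div_iff₀ h2]
        nlinarith [mul_le_mul_of_nonneg_left (show (2 - r) * (2 - r) ≤ 4 by nlinarith [mul_pos h.1 h2, h.1]) h.1.le]
      · have hle : (2 - r) / r ≤ 1 := by rw [div_le_one h.1]; linarith
        rw [ell, abs_of_nonpos (Real.log_nonpos hp.le hle), neg_neg, Real.exp_log hp, qd,
          ← mul_div_assoc, le_div_iff₀ h.1]
        nlinarith [mul_le_mul_of_nonneg_left (show r * r ≤ 4 by nlinarith [h.1, h.2]) h2.le]
    have hs : √(qd r) ≤ 2 * Real.exp (-|ell r| / 2) := by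
      refine (Real.sqrt_le_sqrt hq).trans (le_of_eq ?_)
      rw [Real.sqrt_mul (by norm_num), show (4 : ℝ) = 2 ^ 2 by norm_num,
        Real.sqrt_sq (by norm_num), Real.exp_half]
    rw [gw_of_mem a c h]
    refine (mul_le_mul_of_nonneg_left hs (Real.exp_pos _).le).trans (le_of_le_of_eq (b :=
      2 * Real.exp (a ^ 2 / 16 + -|c| / 2)) ?_ (by rw [Real.exp_add]; ring))
    rw [mul_left_comm, ← Real.exp_add]
    refine mul_le_mul_of_nonneg_left (Real.exp_le_exp.2 ?_) (by norm_num)
    have h0 := sq_nonneg (|ell r - c| / a - a / 4)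
    have e : (|ell r - c| / a - a / 4) ^ 2 =
        ((ell r - c) / a) ^ 2 - |ell r - c| / 2 + a ^ 2 / 16 := by
      rw [sub_sq, div_pow, div_pow, sq_abs]
      field_simp
      ring
    have h3 : |c| ≤ |ell r| + |ell r - c| := by
      have := abs_sub (ell r) (ell r - c); rwa [sub_sub_cancel] at this
    linarith
  · have h0 : gw a c r = 0 := by
      rcases eq_or_lt_of_le hr.1 with h' | h'
      · rw [← h', gw_zero]
      · rw [show r = 2 by by_contra hne; exact h ⟨h', lt_of_le_of_ne hr.2 hne⟩, gw_two]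
    rw [h0, zero_mul]
    positivity

lemma integrable_exp_neg_abs : Integrable fun c : ℝ => Real.exp (-|c| / 2) := by
  refine (integrable_inv_one_add_sq.const_mul 8).mono' (by fun_prop) (Eventually.of_forall fun c => ?_)
  rw [Real.norm_of_nonneg (Real.exp_pos _).le, neg_div, Real.exp_neg, ← div_eq_mul_inv,
    inv_le_iff_one_le_mul₀ (Real.exp_pos _), div_mul_eq_mul_div, le_div_iff₀ (by positivity)]
  have h := Real.quadratic_le_exp_of_nonneg (show 0 ≤ |c| / 2 by positivity)
  nlinarith [sq_abs c, abs_nonneg c]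

/-- The average converges in norm on the range of the square root of `R (2 - R)`. -/
lemma integrable_op_T {a : ℝ} (ha : 0 < a) (s : ℝ) (w : H) :
    Integrable fun c => op N M ξ a s c (fR M ξ sq w) := by
  refine (integrable_exp_neg_abs.const_mul (2 * Real.exp (a ^ 2 / 16) * ‖w‖)).mono'
    ((ContinuousLinearMap.apply ℂ H _).continuous.comp (continuous_op ha s)).aestronglyMeasurable
    (Eventually.of_forall fun c => ?_)
  rw [op, mul_apply_eq_comp]
  refine (ContinuousLinearMap.le_opNorm _ _).trans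
    ((mul_le_of_le_one_left (norm_nonneg _) (norm_fR_win_le a s c)).trans ?_)
  have hw : ContinuousOn (fun r => conj (win a s c r)) (Icc 0 2) :=
    Complex.continuous_conj.comp_continuousOn (continuousOn_win ha s c)
  rw [P132.Tomita.fR_star, P132.Tomita.fR_mul_apply hw P132.Tomita.continuousOn_sq]
  refine (P132.Tomita.norm_fR_apply_le (c := 2 * Real.exp (a ^ 2 / 16) * Real.exp (-|c| / 2))
    (by positivity) (fun r hr => ?_) w).trans (le_of_eq (by ring))
  rw [norm_mul, RCLike.norm_conj, norm_win, P132.Tomita.sq, Complex.norm_real,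
    Real.norm_of_nonneg (Real.sqrt_nonneg _)]
  exact gw_mul_sq_le ha c hr

lemma tendsto_TL_T {a : ℝ} (ha : 0 < a) (s : ℝ) (w : H) :
    Tendsto (fun L => TL N M ξ a s L (fR M ξ sq w)) atTop
      (𝓝 ((cst a : ℂ) • ∫ c, op N M ξ a s c (fR M ξ sq w))) := by
  simp only [TL_apply ha]
  refine Tendsto.const_smul ?_ _
  exact AECover.integral_tendsto_of_countably_generated
    (aecover_Icc (tendsto_neg_atTop_atBot.comp tendsto_natCast_atTop_atTop)
      tendsto_natCast_atTop_atTop) (integrable_op_T ha s w)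

end Vale.Agent.P096.AT.Means
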