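import Vale.Agent.P096.AT.Setting

/-!
# Integrals of products of functions of two operators

Two families of pairs of functions with the same scalar integrals give the same integrated matrix
coefficients: Bernstein polynomials reduce both to finite double sums.
-/

noncomputable section

namespace Vale.Agent.P096.AT.Means

open Complex Set Filter Topology MeasureTheory
open Vale.Agent.P132.Tomita (fR)
open scoped InnerProductSpace ComplexConjugate unitInterval

universe u

variable {H : Type u} [NormedAddCommGroup H] [InnerProductSpace ℂ H] [CompleteSpace H]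
variable {M N : VonNeumannAlgebra H} {ξ : H}

lemma fR_sum {ι : Type*} (s : Finset ι) (f : ι → ℝ → ℂ)
    (hf : ∀ i ∈ s, ContinuousOn (f i) (Icc 0 2)) :
    fR M ξ (fun r => ∑ i ∈ s, f i r) = ∑ i ∈ s, fR M ξ (f i) := by
  classical
  induction s using Finset.induction_on with
  | empty => simpa using P132.Tomita.fR_const (M := M) (Ω := ξ) 0
  | insert a t ha ih =>
    simp only [Finset.sum_insert ha]
    have ht : ∀ i ∈ t, ContinuousOn (f i) (Icc 0 2) := fun i hi =>
      hf i (Finset.mem_insert_of_mem hi)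
    rw [P132.Tomita.fR_add (hf a (Finset.mem_insert_self a t)) (continuousOn_finsetSum _ ht),
      ih ht]

/-- The Bernstein basis on `[0, 2]`. -/
def bb (n : ℕ) (k : Fin (n + 1)) (r : ℝ) : ℂ :=
  (((bernsteinPolynomial ℝ n k).eval (r / 2) : ℝ) : ℂ)

/-- The nodes. -/
def node (n : ℕ) (k : Fin (n + 1)) : ℝ := 2 * (bernstein.z k : ℝ)

/-- The Bernstein approximation on `[0, 2]`. -/
def bern (n : ℕ) (f : ℝ → ℂ) (r : ℝ) : ℂ := ∑ k, f (node n k) * bb n k r

lemma continuous_bb (n : ℕ) (k : Fin (n + 1)) : Continuous (bb n k) := by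
  unfold bb; fun_prop

lemma continuous_bern (n : ℕ) (f : ℝ → ℂ) : Continuous (bern n f) :=
  continuous_finsetSum _ fun k _ => continuous_const.mul (continuous_bb n k)

lemma node_mem (n : ℕ) (k : Fin (n + 1)) : node n k ∈ Icc (0 : ℝ) 2 := by
  have h := (bernstein.z k).2
  exact ⟨by unfold node; linarith [h.1], by unfold node; linarith [h.2]⟩

lemma bb_eq (n : ℕ) (k : Fin (n + 1)) (x : I) : bb n k (2 * (x : ℝ)) = (bernstein n k x : ℂ) := by
  simp [bb, bernstein]

lemma norm_bern_le (n : ℕ) {f : ℝ → ℂ} {c : ℝ} (hc : ∀ r ∈ Icc (0 : ℝ) 2, ‖f r‖ ≤ c) {r : ℝ}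
    (hr : r ∈ Icc (0 : ℝ) 2) : ‖bern n f r‖ ≤ c := by
  set x : I := ⟨r / 2, by constructor <;> linarith [hr.1, hr.2]⟩
  have e : 2 * (x : ℝ) = r := by simp only [x]; ring
  calc ‖bern n f r‖ ≤ ∑ k, ‖f (node n k) * bb n k r‖ := norm_sum_le _ _
    _ ≤ ∑ k : Fin (n + 1), c * bernstein n k x := by
        refine Finset.sum_le_sum fun k _ => ?_
        rw [norm_mul, ← e, bb_eq, Complex.norm_real, Real.norm_of_nonneg bernstein_nonneg]
        exact mul_le_mul_of_nonneg_right (hc _ (node_mem n k)) bernstein_nonneg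
    _ = c := by rw [← Finset.mul_sum, bernstein.probability, mul_one]

lemma tendsto_bern {f : ℝ → ℂ} (hf : ContinuousOn f (Icc 0 2)) {ε : ℝ} (hε : 0 < ε) :
    ∀ᶠ n in atTop, ∀ r ∈ Icc (0 : ℝ) 2, ‖bern n f r - f r‖ ≤ ε := by
  let F : C(I, ℂ) := ⟨fun x => f (2 * (x : ℝ)), hf.comp_continuous (by fun_prop) fun x =>
    ⟨by linarith [x.2.1], by linarith [x.2.2]⟩⟩
  filter_upwards [(tendsto_iff_norm_sub_tendsto_zero.1 (bernsteinApproximation_uniform F)).eventually
    (eventually_le_nhds hε)] with n hn r hr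
  set x : I := ⟨r / 2, by constructor <;> linarith [hr.1, hr.2]⟩
  have e : 2 * (x : ℝ) = r := by simp only [x]; ring
  refine le_trans (le_of_eq ?_) (((bernsteinApproximation n F - F).norm_coe_le_norm x).trans hn)
  rw [ContinuousMap.sub_apply, bernsteinApproximation.apply]
  simp only [bern, Complex.real_smul, F, ContinuousMap.coe_mk, ← e, bb_eq, node]
  congr 2
  exact Finset.sum_congr rfl fun k _ => mul_comm _ _

lemma tendsto_fR_bern {f : ℝ → ℂ} (hf : ContinuousOn f (Icc 0 2)) :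
    Tendsto (fun n => fR M ξ (bern n f)) atTop (𝓝 (fR M ξ f)) := by
  rw [Metric.tendsto_nhds]
  intro ε hε
  filter_upwards [tendsto_bern hf (half_pos hε)] with n hn
  rw [dist_eq_norm, ← P132.Tomita.fR_sub (continuous_bern n f).continuousOn hf]
  exact (P132.Tomita.norm_fR_le (half_pos hε).le hn).trans_lt (half_lt_self hε)

lemma inner_bern (n : ℕ) (f g : ℝ → ℂ) (u v : H) :
    ⟪fR N ξ (bern n f) u, fR M ξ (bern n g) v⟫_ℂ = ∑ j, ∑ k,
      conj (f (node n j)) * g (node n k) * ⟪fR N ξ (bb n j) u, fR M ξ (bb n k) v⟫_ℂ := by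
  have e : ∀ (A : VonNeumannAlgebra H) (h : ℝ → ℂ) (w : H),
      fR A ξ (bern n h) w = ∑ k, h (node n k) • fR A ξ (bb n k) w := fun A h w => by
    unfold bern
    rw [fR_sum _ (fun k r => h (node n k) * bb n k r)
      fun k _ => (continuous_const.mul (continuous_bb n k)).continuousOn, sum_apply]
    refine Finset.sum_congr rfl fun k _ => ?_
    rw [P132.Tomita.fR_const_mul _ (continuous_bb n k).continuousOn, smul_apply]
  rw [e, e]
  simp only [sum_inner, inner_sum, inner_smul_left, inner_smul_right, Finset.mul_sum, ← mul_assoc]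
  rw [Finset.sum_comm]
  exact Finset.sum_congr rfl fun j _ => Finset.sum_congr rfl fun k _ => by ring

/-- A family of pairs of functions with integrable product bound. -/
structure Fam (μ : Measure ℝ) (f g : ℝ → ℝ → ℂ) : Prop where
  contL : ContinuousOn (fun p : ℝ × ℝ => f p.1 p.2) (univ ×ˢ Icc 0 2)
  contR : ContinuousOn (fun p : ℝ × ℝ => g p.1 p.2) (univ ×ˢ Icc 0 2)
  bound : ∃ φ ψ : ℝ → ℝ, Integrable (fun i => φ i * ψ i) μ ∧
    ∀ i, ∀ r ∈ Icc (0 : ℝ) 2, ‖f i r‖ ≤ φ i ∧ ‖g i r‖ ≤ ψ i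

variable {μ ν : Measure ℝ} {f g f' g' : ℝ → ℝ → ℂ}

lemma Fam.at_left (h : Fam μ f g) (i : ℝ) : ContinuousOn (f i) (Icc 0 2) :=
  h.contL.comp (f := fun r : ℝ => (i, r)) (by fun_prop) fun _ hr => ⟨mem_univ _, hr⟩

lemma Fam.at_right (h : Fam μ f g) (i : ℝ) : ContinuousOn (g i) (Icc 0 2) :=
  h.contR.comp (f := fun r : ℝ => (i, r)) (by fun_prop) fun _ hr => ⟨mem_univ _, hr⟩

lemma Fam.integrable_prod (h : Fam μ f g) {x y : ℝ} (hx : x ∈ Icc (0 : ℝ) 2)
    (hy : y ∈ Icc (0 : ℝ) 2) : Integrable (fun i => conj (f i x) * g i y) μ := by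
  obtain ⟨φ, ψ, hint, hb⟩ := h.bound
  refine hint.mono' ?_ (Eventually.of_forall fun i => ?_)
  · refine Continuous.aestronglyMeasurable ?_
    refine (Complex.continuous_conj.comp (continuousOn_univ.1 ?_)).mul (continuousOn_univ.1 ?_)
    · exact h.contL.comp (f := fun i : ℝ => (i, x)) (by fun_prop) fun _ _ => ⟨mem_univ _, hx⟩
    · exact h.contR.comp (f := fun i : ℝ => (i, y)) (by fun_prop) fun _ _ => ⟨mem_univ _, hy⟩
  · rw [norm_mul, RCLike.norm_conj]
    exact mul_le_mul (hb i x hx).1 (hb i y hy).2 (norm_nonneg _)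
      ((norm_nonneg _).trans (hb i x hx).1)

lemma Fam.tendsto_pairing (h : Fam μ f g) (u v : H) :
    Tendsto (fun n => ∑ j, ∑ k, (∫ i, conj (f i (node n j)) * g i (node n k) ∂μ) *
        ⟪fR N ξ (bb n j) u, fR M ξ (bb n k) v⟫_ℂ) atTop
      (𝓝 (∫ i, ⟪fR N ξ (f i) u, fR M ξ (g i) v⟫_ℂ ∂μ)) := by
  obtain ⟨φ, ψ, hint, hb⟩ := h.bound
  have hint' : ∀ n, ∀ j k : Fin (n + 1), Integrable (fun i => conj (f i (node n j)) *
      g i (node n k) * ⟪fR N ξ (bb n j) u, fR M ξ (bb n k) v⟫_ℂ) μ := fun n j k =>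
    (h.integrable_prod (node_mem n j) (node_mem n k)).mul_const _
  have e : ∀ n, ∫ i, ⟪fR N ξ (bern n (f i)) u, fR M ξ (bern n (g i)) v⟫_ℂ ∂μ =
      ∑ j, ∑ k, (∫ i, conj (f i (node n j)) * g i (node n k) ∂μ) *
        ⟪fR N ξ (bb n j) u, fR M ξ (bb n k) v⟫_ℂ := fun n => by
    simp only [inner_bern]
    rw [integral_finsetSum _ fun j _ => integrable_finsetSum _ fun k _ => hint' n j k]
    refine Finset.sum_congr rfl fun j _ => ?_
    rw [integral_finsetSum _ fun k _ => hint' n j k]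
    exact Finset.sum_congr rfl fun k _ => integral_mul_const _ _
  simp only [← e]
  refine tendsto_integral_of_dominated_convergence (fun i => φ i * ψ i * (‖u‖ * ‖v‖))
    (fun n => ?_) (hint.mul_const _) (fun n => Eventually.of_forall fun i => ?_)
    (Eventually.of_forall fun i => ?_)
  · simp only [inner_bern]
    exact (integrable_finsetSum _ fun j _ =>
      integrable_finsetSum _ fun k _ => hint' n j k).aestronglyMeasurable
  · have h0 : (0 : ℝ) ∈ Icc (0 : ℝ) 2 := ⟨le_rfl, zero_le_two⟩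
    have hφ : 0 ≤ φ i := (norm_nonneg _).trans (hb i 0 h0).1
    have hψ : 0 ≤ ψ i := (norm_nonneg _).trans (hb i 0 h0).2
    refine (norm_inner_le_norm _ _).trans ((mul_le_mul
      (P132.Tomita.norm_fR_apply_le hφ (fun r hr => norm_bern_le n (fun s hs => (hb i s hs).1) hr) u)
      (P132.Tomita.norm_fR_apply_le hψ (fun r hr => norm_bern_le n (fun s hs => (hb i s hs).2) hr) v)
      (norm_nonneg _) (mul_nonneg hφ (norm_nonneg _))).trans (le_of_eq (by ring)))
  · exact (((ContinuousLinearMap.apply ℂ H u).continuous.tendsto _).comp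
      (tendsto_fR_bern (h.at_left i))).inner (((ContinuousLinearMap.apply ℂ H v).continuous.tendsto _).comp
      (tendsto_fR_bern (h.at_right i)))

/-- Equal scalar integrals give equal integrated matrix coefficients. -/
theorem pairing_eq (h : Fam μ f g) (h' : Fam ν f' g')
    (heq : ∀ x ∈ Icc (0 : ℝ) 2, ∀ y ∈ Icc (0 : ℝ) 2,
      ∫ i, conj (f i x) * g i y ∂μ = ∫ i, conj (f' i x) * g' i y ∂ν) (u v : H) :
    ∫ i, ⟪fR N ξ (f i) u, fR M ξ (g i) v⟫_ℂ ∂μ =
      ∫ i, ⟪fR N ξ (f' i) u, fR M ξ (g' i) v⟫_ℂ ∂ν := by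
  refine tendsto_nhds_unique (h.tendsto_pairing u v) ((h'.tendsto_pairing u v).congr fun n => ?_)
  exact Finset.sum_congr rfl fun j _ => Finset.sum_congr rfl fun k _ => by
    rw [heq _ (node_mem n j) _ (node_mem n k)]

end Vale.Agent.P096.AT.Means
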