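import Vale.Agent.P096.AT.Means.Column
import Vale.Agent.P096.AT.Means.Double

/-!
# The averaged intertwiners

`avgW a` is the average of `U N r * U M (-r)` for a centred Gaussian `r` of variance `a⁻²`. It is
the strong limit of the truncated averages of products of windows, so it is a near isometry when
the windows of the two modular operators are close.
-/

noncomputable section

namespace Vale.Agent.P096.AT.Means

open Complex Set Filter Topology MeasureTheory ProbabilityTheory
open Vale.Agent.P132.Tomita (fR qd ell phase U CycSep inner_star_left)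
open scoped InnerProductSpace ComplexConjugate Real

universe u

variable {H : Type u} [NormedAddCommGroup H] [InnerProductSpace ℂ H] [CompleteSpace H]
variable {M N : VonNeumannAlgebra H} {ξ : H}

/-- The standard Gaussian. -/
abbrev gauss : Measure ℝ := gaussianReal 0 1

/-- The product of the two flows. -/
def W (N M : VonNeumannAlgebra H) (ξ : H) (r : ℝ) : H →L[ℂ] H := U N ξ r * U M ξ (-r)

lemma norm_W_apply_le (hN : CycSep N ξ) (hM : CycSep M ξ) (r : ℝ) (v : H) :
    ‖W N M ξ r v‖ ≤ ‖v‖ := by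
  rw [W, mul_apply_eq_comp]
  exact (hN.norm_U_le r _).trans (hM.norm_U_le _ v)

lemma continuous_U_apply (hN : CycSep N ξ) {g : ℝ → H} (hg : Continuous g) :
    Continuous fun t => U N ξ t (g t) := by
  refine continuous_iff_continuousAt.2 fun t => ?_
  refine tendsto_iff_norm_sub_tendsto_zero.2 (squeeze_zero (fun _ => norm_nonneg _)
    (g := fun s => ‖g s - g t‖ + ‖U N ξ s (g t) - U N ξ t (g t)‖) (fun s => ?_) ?_)
  · calc ‖U N ξ s (g s) - U N ξ t (g t)‖
          = ‖U N ξ s (g s - g t) + (U N ξ s (g t) - U N ξ t (g t))‖ := by rw [map_sub]; abel_nf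
      _ ≤ _ := (norm_add_le _ _).trans (add_le_add (hN.norm_U_le s _) le_rfl)
  · have h1 := tendsto_iff_norm_sub_tendsto_zero.1 (hg.tendsto t)
    have h2 := tendsto_iff_norm_sub_tendsto_zero.1 (((hN.U_continuous (g t))).tendsto t)
    simpa using h1.add h2

lemma continuous_W_apply (hN : CycSep N ξ) (hM : CycSep M ξ) (v : H) :
    Continuous fun r => W N M ξ r v := by
  simp only [W, mul_apply_eq_comp]
  exact continuous_U_apply hN ((hM.U_continuous v).comp continuous_neg)

lemma integrable_W (hN : CycSep N ξ) (hM : CycSep M ξ) (a : ℝ) (v : H) :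
    Integrable (fun x => W N M ξ (x / a) v) gauss :=
  (integrable_const ‖v‖).mono'
    ((continuous_W_apply hN hM v).comp (continuous_id.div_const a)).aestronglyMeasurable
    (Eventually.of_forall fun _ => norm_W_apply_le hN hM _ v)

/-- The Gaussian average of the product of the flows. -/
def avgW (hN : CycSep N ξ) (hM : CycSep M ξ) (a : ℝ) : H →L[ℂ] H :=
  LinearMap.mkContinuous
    { toFun := fun v => ∫ x, W N M ξ (x / a) v ∂gauss
      map_add' := fun v w => by
        simp only [map_add]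
        exact integral_add (integrable_W hN hM a v) (integrable_W hN hM a w)
      map_smul' := fun z v => by
        simp only [map_smul, RingHom.id_apply]
        exact integral_smul z _ }
    1 fun v => by
      refine le_of_le_of_eq (norm_integral_le_of_norm_le_const
        (Eventually.of_forall fun x => norm_W_apply_le hN hM (x / a) v)) ?_
      simp

lemma avgW_apply (hN : CycSep N ξ) (hM : CycSep M ξ) (a : ℝ) (v : H) :
    avgW hN hM a v = ∫ x, W N M ξ (x / a) v ∂gauss := rfl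

lemma norm_avgW_le (hN : CycSep N ξ) (hM : CycSep M ξ) (a : ℝ) : ‖avgW hN hM a‖ ≤ 1 :=
  LinearMap.mkContinuous_norm_le _ zero_le_one _

lemma avgW_self (hM : CycSep M ξ) (a : ℝ) : avgW hM hM a = 1 := by
  refine ContinuousLinearMap.ext fun v => ?_
  have e : ∀ r, W M M ξ r v = v := fun r => by
    rw [W, ← hM.U_add, add_neg_cancel, hM.U_zero, one_apply_eq_self]
  simp [avgW_apply, e]

/-- The average, moved by the flows. -/
def Ts (hN : CycSep N ξ) (hM : CycSep M ξ) (a s : ℝ) : H →L[ℂ] H :=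
  U N ξ s * avgW hN hM a * U M ξ (-s)

lemma Ts_zero (hN : CycSep N ξ) (hM : CycSep M ξ) (a : ℝ) : Ts hN hM a 0 = avgW hN hM a := by
  rw [Ts, neg_zero, hN.U_zero, hM.U_zero, one_mul, mul_one]

lemma norm_Ts_le (hN : CycSep N ξ) (hM : CycSep M ξ) (a s : ℝ) : ‖Ts hN hM a s‖ ≤ 1 := by
  refine ContinuousLinearMap.opNorm_le_bound _ zero_le_one fun v => ?_
  rw [Ts, mul_apply_eq_comp, mul_apply_eq_comp, one_mul]
  exact (hN.norm_U_le s _).trans (((avgW hN hM a).le_of_opNorm_le (norm_avgW_le hN hM a) _).trans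
    (by simpa using hM.norm_U_le (-s) v))

lemma Ts_self (hM : CycSep M ξ) (a s : ℝ) : Ts hM hM a s = 1 := by
  rw [Ts, avgW_self, mul_one, ← hM.U_add, add_neg_cancel, hM.U_zero]

lemma integral_gauss_phase (t : ℝ) :
    ∫ x, Complex.exp ((t : ℂ) * (x : ℂ) * I) ∂gauss = ((Real.exp (-t ^ 2 / 2) : ℝ) : ℂ) := by
  rw [← charFun_apply_real, charFun_gaussianReal, Complex.ofReal_exp]
  congr 1
  push_cast
  ring

lemma integral_gw_mul {a : ℝ} (ha : 0 < a) {p q : ℝ} (hp : p ∈ Ioo (0 : ℝ) 2)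
    (hq : q ∈ Ioo (0 : ℝ) 2) :
    ∫ c, gw a c p * gw a c q = Real.exp (-((ell p - ell q) / a) ^ 2 / 2) * (a * √(π / 2)) := by
  simp only [gw_of_mem a _ hp, gw_of_mem a _ hq, ← Real.exp_add]
  have e : ∀ c, -((ell p - c) / a) ^ 2 + -((ell q - c) / a) ^ 2 =
      -((ell p - ell q) / a) ^ 2 / 2 + -(2 / a ^ 2) * ((ell p + ell q) / 2 - c) ^ 2 := fun c => by
    field_simp; ring
  simp only [e, Real.exp_add]
  rw [integral_const_mul, integral_sub_left_eq_self (fun y => Real.exp (-(2 / a ^ 2) * y ^ 2)) volume,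
    integral_gaussian, div_div_eq_mul_div, mul_comm π, mul_div_assoc,
    Real.sqrt_mul (sq_nonneg a), Real.sqrt_sq ha.le]

lemma norm_sq_le_one {r : ℝ} (hr : r ∈ Icc (0 : ℝ) 2) : ‖P132.Tomita.sq r‖ ≤ 1 := by
  rw [P132.Tomita.sq, Complex.norm_real, Real.norm_of_nonneg (Real.sqrt_nonneg _)]
  exact Real.sqrt_le_one.2 (by unfold qd; nlinarith [sq_nonneg (r - 1)])

/-- The window average and the Gaussian average of the flows have the same matrix coefficients. -/
lemma inner_integral_op (hN : CycSep N ξ) (hM : CycSep M ξ) {a : ℝ} (ha : 0 < a) (s : ℝ)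
    (u v : H) :
    ⟪fR N ξ P132.Tomita.sq u, (cst a : ℂ) • ∫ c, op N M ξ a s c (fR M ξ P132.Tomita.sq v)⟫_ℂ =
      ⟪fR N ξ P132.Tomita.sq u, Ts hN hM a s (fR M ξ P132.Tomita.sq v)⟫_ℂ := by
  set fW : ℝ → ℝ → ℂ := fun c r => conj (win a s c r) * P132.Tomita.sq r with hfW
  set gW : ℝ → ℝ → ℂ := fun c r => (cst a : ℂ) * (conj (win a s c r) * P132.Tomita.sq r) with hgW
  set fP : ℝ → ℝ → ℂ := fun x r => phase (-(x / a + s)) r * P132.Tomita.sq r with hfP
  have hsqc : ContinuousOn (fun p : ℝ × ℝ => P132.Tomita.sq p.2) (univ ×ˢ Icc 0 2) :=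
    P132.Tomita.continuousOn_sq.comp continuousOn_snd fun p hp => hp.2
  have hcW : ContinuousOn (fun p : ℝ × ℝ => fW p.1 p.2) (univ ×ˢ Icc 0 2) :=
    (Complex.continuous_conj.comp_continuousOn (continuousOn_win_param ha s)).mul hsqc
  have hbW : ∀ c, ∀ r ∈ Icc (0 : ℝ) 2,
      ‖fW c r‖ ≤ 2 * Real.exp (a ^ 2 / 16) * Real.exp (-|c| / 2) := fun c r hr => by
    rw [hfW, norm_mul, RCLike.norm_conj, norm_win, P132.Tomita.sq, Complex.norm_real,
      Real.norm_of_nonneg (Real.sqrt_nonneg _)]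
    exact gw_mul_sq_le ha c hr
  have hFW : Fam volume fW gW := by
    refine ⟨hcW, continuousOn_const.mul hcW,
      fun c => 2 * Real.exp (a ^ 2 / 16) * Real.exp (-|c| / 2), fun _ => cst a,
      (integrable_exp_neg_abs.const_mul _).mul_const _, fun c r hr => ⟨hbW c r hr, ?_⟩⟩
    rw [hgW, norm_mul, Complex.norm_real, Real.norm_of_nonneg (cst_nonneg ha), norm_mul,
      RCLike.norm_conj, norm_win]
    exact mul_le_of_le_one_right (cst_nonneg ha)
      (mul_le_one₀ (gw_le_one a c r) (norm_nonneg _) (norm_sq_le_one hr))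
  have hFP : Fam gauss fP fP := by
    have hc : ContinuousOn (fun p : ℝ × ℝ => fP p.1 p.2) (univ ×ˢ Icc 0 2) :=
      (P132.Tomita.continuousOn_phase_mul_param P132.Tomita.continuousOn_sq P132.Tomita.sq_zero'
        P132.Tomita.sq_two).comp (f := fun p : ℝ × ℝ => (-(p.1 / a + s), p.2)) (by fun_prop)
        fun p hp => ⟨mem_univ _, hp.2⟩
    refine ⟨hc, hc, fun _ => 1, fun _ => 1, integrable_const _, fun x r hr => ?_⟩
    rw [hfP, norm_mul, P132.Tomita.norm_phase, one_mul]
    exact ⟨norm_sq_le_one hr, norm_sq_le_one hr⟩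
  have heq : ∀ p ∈ Icc (0 : ℝ) 2, ∀ q ∈ Icc (0 : ℝ) 2,
      ∫ c, conj (fW c p) * gW c q = ∫ x, conj (fP x p) * fP x q ∂gauss := by
    intro p hp q hq
    have hend : ∀ r ∈ Icc (0 : ℝ) 2, r ∉ Ioo (0 : ℝ) 2 → P132.Tomita.sq r = 0 := fun r hr h => by
      rcases eq_or_lt_of_le hr.1 with h' | h'
      · rw [← h', P132.Tomita.sq_zero']
      · rw [show r = 2 by by_contra hne; exact h ⟨h', lt_of_le_of_ne hr.2 hne⟩, P132.Tomita.sq_two]
    by_cases hp' : p ∈ Ioo (0 : ℝ) 2
    swap
    · simp [hfW, hgW, hfP, hend p hp hp']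
    by_cases hq' : q ∈ Ioo (0 : ℝ) 2
    swap
    · simp [hfW, hgW, hfP, hend q hq hq']
    have e1 : ∀ c, conj (fW c p) * gW c q =
        (cst a : ℂ) * (phase s p * phase (-s) q * P132.Tomita.sq p * P132.Tomita.sq q) *
          ((gw a c p * gw a c q : ℝ) : ℂ) := fun c => by
      simp only [hfW, hgW, win, map_mul, Complex.conj_conj, P132.Tomita.conj_sq,
        Complex.conj_ofReal, P132.Tomita.conj_phase]
      push_cast
      ring
    have e2 : ∀ x : ℝ, conj (fP x p) * fP x q = (phase s p * phase (-s) q * P132.Tomita.sq p * P132.Tomita.sq q) *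
        Complex.exp ((((ell p - ell q) / a : ℝ) : ℂ) * (x : ℂ) * I) := fun x => by
      simp only [hfP, map_mul, P132.Tomita.conj_sq, P132.Tomita.conj_phase, neg_neg]
      have e : phase (x / a + s) p * phase (-(x / a + s)) q = phase s p * phase (-s) q *
          Complex.exp ((((ell p - ell q) / a : ℝ) : ℂ) * (x : ℂ) * I) := by
        simp only [phase, ← Complex.exp_add]
        congr 1
        push_cast
        ring
      linear_combination (P132.Tomita.sq p * P132.Tomita.sq q) * e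
    simp only [e1, e2, integral_const_mul]
    rw [integral_complex_ofReal, integral_gw_mul ha hp' hq', integral_gauss_phase]
    have := congrArg Complex.ofReal (cst_mul_mass ha)
    push_cast at this ⊢
    linear_combination (phase s p * phase (-s) q * P132.Tomita.sq p * P132.Tomita.sq q *
      Complex.exp (-(((ell p : ℂ) - (ell q : ℂ)) / (a : ℂ)) ^ 2 / 2)) * this
  have key := pairing_eq (M := M) (N := N) (ξ := ξ) hFW hFP heq u v
  have eL : ∀ c, ⟪fR N ξ (fW c) u, fR M ξ (gW c) v⟫_ℂ =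
      (cst a : ℂ) * ⟪fR N ξ P132.Tomita.sq u, op N M ξ a s c (fR M ξ P132.Tomita.sq v)⟫_ℂ := fun c => by
    have hw : ContinuousOn (fun r => conj (win a s c r)) (Icc 0 2) :=
      Complex.continuous_conj.comp_continuousOn (continuousOn_win ha s c)
    rw [hgW, P132.Tomita.fR_const_mul _ (hFW.at_left c), smul_apply, inner_smul_right, inner_op,
      P132.Tomita.fR_star, P132.Tomita.fR_star, P132.Tomita.fR_mul_apply hw P132.Tomita.continuousOn_sq,
      P132.Tomita.fR_mul_apply hw P132.Tomita.continuousOn_sq]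
  have eR : ∀ x, ⟪fR N ξ (fP x) u, fR M ξ (fP x) v⟫_ℂ =
      ⟪fR N ξ P132.Tomita.sq u, U N ξ s (W N M ξ (x / a) (U M ξ (-s) (fR M ξ P132.Tomita.sq v)))⟫_ℂ := fun x => by
    have eU : U N ξ s (W N M ξ (x / a) (U M ξ (-s) (fR M ξ P132.Tomita.sq v))) =
        U N ξ (x / a + s) (U M ξ (-(x / a + s)) (fR M ξ P132.Tomita.sq v)) := by
      rw [add_comm (x / a) s, hN.U_add s (x / a), show -(s + x / a) = -(x / a) + -s by ring,
        hM.U_add, W]
      rfl
    have hs : ContinuousOn P132.Tomita.sq (Icc 0 2) := P132.Tomita.continuousOn_sq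
    rw [eU, ← neg_neg (x / a + s), ← hN.inner_U, neg_neg,
      hM.U_fR _ hs P132.Tomita.sq_zero' P132.Tomita.sq_two,
      hN.U_fR _ hs P132.Tomita.sq_zero' P132.Tomita.sq_two]
  simp only [eL, eR, integral_const_mul] at key
  rw [inner_smul_right, ← integral_inner (integrable_op_T ha s v), key, Ts, mul_apply_eq_comp,
    mul_apply_eq_comp, avgW_apply, ← (U N ξ s).integral_comp_comm (integrable_W hN hM a _),
    integral_inner ((U N ξ s).integrable_comp (integrable_W hN hM a _))]

/-- The truncated averages tend strongly to the Gaussian average of the flows. -/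
theorem tendsto_TL (hN : CycSep N ξ) (hM : CycSep M ξ) {a : ℝ} (ha : 0 < a) (s : ℝ) (v : H) :
    Tendsto (fun L => TL N M ξ a s L v) atTop (𝓝 (Ts hN hM a s v)) := by
  have base : ∀ w, Tendsto (fun L => TL N M ξ a s L (fR M ξ P132.Tomita.sq w)) atTop
      (𝓝 (Ts hN hM a s (fR M ξ P132.Tomita.sq w))) := fun w => by
    refine (tendsto_TL_T ha s w).trans_eq ?_
    refine congrArg 𝓝 (ext_inner_left ℂ fun u => ?_)
    exact congrFun (Continuous.ext_on hN.denseRange_T
      (f := fun u => ⟪u, (cst a : ℂ) • ∫ c, op N M ξ a s c (fR M ξ P132.Tomita.sq w)⟫_ℂ)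
      (g := fun u => ⟪u, Ts hN hM a s (fR M ξ P132.Tomita.sq w)⟫_ℂ) (by fun_prop) (by fun_prop)
      (by rintro _ ⟨η, rfl⟩; exact inner_integral_op hN hM ha s η w)) u
  rw [Metric.tendsto_nhds]
  intro ε hε
  obtain ⟨_, ⟨w, rfl⟩, hd⟩ := hM.denseRange_T.exists_dist_lt v (show 0 < ε / 3 by positivity)
  filter_upwards [Metric.tendsto_nhds.1 (base w) (ε / 3) (by positivity)] with L hL
  rw [dist_eq_norm] at hd hL ⊢
  change ‖v - fR M ξ P132.Tomita.sq w‖ < ε / 3 at hd
  have h1 := (TL N M ξ a s L).le_of_opNorm_le (norm_TL_le ha s L) (v - fR M ξ P132.Tomita.sq w)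
  have h2 := (Ts hN hM a s).le_of_opNorm_le (norm_Ts_le hN hM a s) (v - fR M ξ P132.Tomita.sq w)
  rw [map_sub, one_mul] at h1 h2
  calc ‖TL N M ξ a s L v - Ts hN hM a s v‖
      = ‖(TL N M ξ a s L v - TL N M ξ a s L (fR M ξ P132.Tomita.sq w)) +
          (TL N M ξ a s L (fR M ξ P132.Tomita.sq w) - Ts hN hM a s (fR M ξ P132.Tomita.sq w)) -
          (Ts hN hM a s v - Ts hN hM a s (fR M ξ P132.Tomita.sq w))‖ := by congr 1; abel
    _ ≤ _ := (norm_sub_le _ _).trans (add_le_add (norm_add_le _ _) le_rfl)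
    _ < ε := by linarith

lemma star_Ts (hN : CycSep N ξ) (hM : CycSep M ξ) {a : ℝ} (ha : 0 < a) (s : ℝ) :
    star (Ts hN hM a s) = Ts hM hN a s := by
  refine ContinuousLinearMap.ext fun u => ext_inner_right ℂ fun v => ?_
  rw [inner_star_left]
  refine tendsto_nhds_unique ((tendsto_const_nhds (x := u)).inner (tendsto_TL hN hM ha s v))
    (((tendsto_TL hM hN ha s u).inner (tendsto_const_nhds (x := v))).congr fun L => ?_)
  rw [← star_TL, inner_star_left]

/-- Close windows make the Gaussian averages near isometries. -/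
theorem norm_star_Ts_mul_Ts (hN : CycSep N ξ) (hM : CycSep M ξ) {a b : ℝ} (ha : 0 < a) (hb : 0 < b)
    (hab : a ≤ 2 * b) (hba : b ≤ 2 * a) (s t : ℝ) {ω : ℝ}
    (h1 : ∀ c, ‖fR M ξ (win a s c) - fR N ξ (win a s c)‖ ≤ ω)
    (h2 : ∀ c, ‖fR M ξ (win b t c) - fR N ξ (win b t c)‖ ≤ ω) :
    ‖star (Ts hN hM a s) * Ts hN hM b t - 1‖ ≤ 16 * √ω := by
  refine norm_le_of_unit (by positivity) fun u v hu hv => ?_
  have hl := ((tendsto_TL hN hM ha s u).inner (𝕜 := ℂ) (tendsto_TL hN hM hb t v)).sub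
    ((tendsto_TL hM hM ha s u).inner (𝕜 := ℂ) (tendsto_TL hM hM hb t v))
  rw [Ts_self, Ts_self, one_apply_eq_self, one_apply_eq_self] at hl
  rw [sub_apply, mul_apply_eq_comp, one_apply_eq_self, inner_sub_right,
    ← inner_star_left (star (Ts hN hM a s)) u, star_star]
  exact le_of_tendsto hl.norm
    (Eventually.of_forall fun L => norm_TL_inner_sub_le ha hb hab hba s t h1 h2 L hu hv)

/-- Close windows make the Gaussian averages close to each other. -/
theorem norm_Ts_sub_Ts (hN : CycSep N ξ) (hM : CycSep M ξ) {a b : ℝ} (ha : 0 < a) (hb : 0 < b)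
    (hab : a ≤ 2 * b) (hba : b ≤ 2 * a) (s t : ℝ) {ω : ℝ}
    (h1 : ∀ c, ‖fR M ξ (win a s c) - fR N ξ (win a s c)‖ ≤ ω)
    (h2 : ∀ c, ‖fR M ξ (win b t c) - fR N ξ (win b t c)‖ ≤ ω) :
    ‖Ts hN hM a s - Ts hN hM b t‖ ≤ 32 * √ω := by
  set A := Ts hN hM a s with hA
  set B := Ts hN hM b t with hB
  have e1 : ‖star B * A - 1‖ ≤ 16 * √ω := norm_star_Ts_mul_Ts hN hM hb ha hba hab t s h2 h1
  have e2 : ‖B * star B - 1‖ ≤ 16 * √ω := by
    have h := norm_star_Ts_mul_Ts hM hN hb hb (by linarith) (by linarith) t t (ω := ω)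
      (fun c => by rw [norm_sub_rev]; exact h2 c) (fun c => by rw [norm_sub_rev]; exact h2 c)
    rwa [← star_Ts hN hM hb t, star_star] at h
  have e : A - B = B * (star B * A - 1) - (B * star B - 1) * A := by noncomm_ring
  rw [e]
  refine (norm_sub_le _ _).trans ?_
  have q1 := (norm_mul_le B (star B * A - 1)).trans
    (mul_le_mul (norm_Ts_le hN hM b t) e1 (norm_nonneg _) zero_le_one)
  have q2 := (norm_mul_le (B * star B - 1) A).trans
    (mul_le_mul e2 (norm_Ts_le hN hM a s) (norm_nonneg _) (by positivity))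
  linarith

end Vale.Agent.P096.AT.Means
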