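import Vale.Agent.P096.AT.Means.Kernel
import Vale.Agent.P096.AT.Matrix
import Vale.Agent.P096.KK.WeakLim

/-!
# The averaged intertwiners nearly normalise the algebra

Each `W r` conjugates `M` into `2 d` of `M` at all matrix sizes. A convex average of such operators
which is almost a coisometry does the same, and so does the Gaussian average, by weak compactness.
-/

noncomputable section

namespace Vale.Agent.P096.AT.Means

open Complex Set Filter Topology MeasureTheory
open Vale.Agent.P132.Tomita (U CycSep inner_star_left)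
open Vale.Agent.P096.KK (WLim)
open Vale.Agent.P104.Sim (MatContraction)
open _root_.P132 (MatBound)
open scoped InnerProductSpace ComplexConjugate

universe u

variable {H : Type u} [NormedAddCommGroup H] [InnerProductSpace ℂ H] [CompleteSpace H]
variable {M N : VonNeumannAlgebra H} {ξ : H} {n : ℕ}

/-- The square of the norm of a column. -/
def nsq (u : Fin n → H) : ℝ := ∑ i, ‖u i‖ ^ 2

/-- The matrix coefficient of a matrix. -/
def pairM (e : Fin n → Fin n → H →L[ℂ] H) (u v : Fin n → H) : ℂ :=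
  ∑ i, ⟪u i, ∑ j, e i j (v j)⟫_ℂ

omit [CompleteSpace H] in
lemma nsq_nonneg (u : Fin n → H) : 0 ≤ nsq u := Finset.sum_nonneg fun _ _ => sq_nonneg _

omit [CompleteSpace H] in
lemma norm_pairM_le {e : Fin n → Fin n → H →L[ℂ] H} {K : ℝ} (hK : 0 ≤ K) (he : MatBound e K)
    (u v : Fin n → H) : ‖pairM e u v‖ ≤ K * (√(nsq u) * √(nsq v)) := by
  refine (norm_sum_le _ _).trans ((Finset.sum_le_sum fun i _ => norm_inner_le_norm _ _).trans ?_)
  refine (Real.sum_mul_le_sqrt_mul_sqrt _ _ _).trans ?_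
  refine (mul_le_mul_of_nonneg_left (Real.sqrt_le_sqrt (he v)) (Real.sqrt_nonneg _)).trans ?_
  rw [Real.sqrt_mul (sq_nonneg K), Real.sqrt_sq hK, mul_left_comm]
  exact le_rfl

omit [CompleteSpace H] in
lemma matBound_of_pairM {e : Fin n → Fin n → H →L[ℂ] H} {K : ℝ} (hK : 0 ≤ K)
    (h : ∀ u v, ‖pairM e u v‖ ≤ K * (√(nsq u) * √(nsq v))) : MatBound e K := by
  intro v
  set w : Fin n → H := fun i => ∑ j, e i j (v j)
  have hw := h w v
  have e1 : pairM e w v = ((nsq w : ℝ) : ℂ) := by
    simp only [pairM, nsq, Complex.ofReal_sum]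
    exact Finset.sum_congr rfl fun i _ => by
      rw [show (∑ j, e i j (v j)) = w i from rfl, inner_self_eq_norm_sq_to_K]; push_cast; rfl
  rw [e1, Complex.norm_real, Real.norm_of_nonneg (nsq_nonneg w)] at hw
  have h1 : √(nsq w) * √(nsq w) = nsq w := Real.mul_self_sqrt (nsq_nonneg w)
  have h2 : √(nsq v) * √(nsq v) = nsq v := Real.mul_self_sqrt (nsq_nonneg v)
  change nsq w ≤ K ^ 2 * nsq v
  nlinarith [sq_nonneg (√(nsq w) - K * √(nsq v))]

lemma pairM_conj (A : H →L[ℂ] H) (X : Fin n → Fin n → H →L[ℂ] H) (u v : Fin n → H) :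
    pairM (fun i j => A * X i j * star A) u v =
      pairM X (fun i => star A (u i)) (fun j => star A (v j)) := by
  simp only [pairM, mul_apply_eq_comp, inner_star_left, map_sum]

omit [CompleteSpace H] in
lemma pairM_sub (e f : Fin n → Fin n → H →L[ℂ] H) (u v : Fin n → H) :
    pairM (fun i j => e i j - f i j) u v = pairM e u v - pairM f u v := by
  simp [pairM, Finset.sum_sub_distrib, inner_sub_right]

omit [CompleteSpace H] in
lemma pairM_sum {ι : Type*} (s : Finset ι) (p : ι → ℂ) (e : ι → Fin n → Fin n → H →L[ℂ] H)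
    (u v : Fin n → H) : pairM (fun i j => ∑ y ∈ s, p y • e y i j) u v =
      ∑ y ∈ s, p y * pairM (e y) u v := by
  simp only [pairM, sum_apply, smul_apply, inner_sum, inner_smul_right, Finset.mul_sum]
  rw [Finset.sum_comm (s := s)]
  exact Finset.sum_congr rfl fun i _ => Finset.sum_comm

omit [CompleteSpace H] in
lemma norm_entry_le {Y : Fin n → Fin n → H →L[ℂ] H} (hY : MatContraction Y) (i j : Fin n) :
    ‖Y i j‖ ≤ 1 := by
  classical
  refine ContinuousLinearMap.opNorm_le_bound _ zero_le_one fun x => ?_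
  have h := matBound_of_contraction hY (Pi.single j x)
  have e : ∀ k, ∑ l, Y k l ((Pi.single j x : Fin n → H) l) = Y k j x := fun k => by
    rw [Finset.sum_eq_single j (fun l _ hl => by rw [Pi.single_eq_of_ne hl, map_zero]) (by simp),
      Pi.single_eq_same]
  have e' : ∑ l, ‖(Pi.single j x : Fin n → H) l‖ ^ 2 = ‖x‖ ^ 2 := by
    rw [Finset.sum_eq_single j (fun l _ hl => by simp [Pi.single_eq_of_ne hl]) (by simp),
      Pi.single_eq_same]
  simp only [e] at h
  rw [e'] at h
  have h1 : ‖Y i j x‖ ^ 2 ≤ ‖x‖ ^ 2 := by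
    refine le_trans ?_ (h.trans_eq (by ring))
    exact Finset.single_le_sum (f := fun k => ‖Y k j x‖ ^ 2) (fun k _ => sq_nonneg _)
      (Finset.mem_univ i)
  simpa using (abs_le_of_sq_le_sq' h1 (norm_nonneg x)).2

omit [CompleteSpace H] in
/-- The variance identity. -/
lemma sum_weight_norm_sub_sq {ι : Type*} (s : Finset ι) (p : ι → ℝ) (hp1 : ∑ y ∈ s, p y = 1)
    (a : ι → H) :
    ∑ y ∈ s, p y * ‖a y - ∑ z ∈ s, (p z : ℂ) • a z‖ ^ 2 =
      ∑ y ∈ s, p y * ‖a y‖ ^ 2 - ‖∑ z ∈ s, (p z : ℂ) • a z‖ ^ 2 := by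
  set m := ∑ z ∈ s, (p z : ℂ) • a z with hm
  have e : ∀ y, ‖a y - m‖ ^ 2 = ‖a y‖ ^ 2 - 2 * RCLike.re ⟪a y, m⟫_ℂ + ‖m‖ ^ 2 := fun y =>
    norm_sub_sq (𝕜 := ℂ) _ _
  have h1 : ∑ y ∈ s, p y * RCLike.re ⟪a y, m⟫_ℂ = ‖m‖ ^ 2 := by
    rw [← inner_self_eq_norm_sq (𝕜 := ℂ) m]
    conv_rhs => enter [2, 2]; rw [hm]
    rw [sum_inner, map_sum]
    refine Finset.sum_congr rfl fun y _ => ?_
    rw [inner_smul_left, Complex.conj_ofReal]
    exact (Complex.re_ofReal_mul _ _).symm
  have e' : ∀ y, p y * ‖a y - m‖ ^ 2 =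
      p y * ‖a y‖ ^ 2 - 2 * (p y * RCLike.re ⟪a y, m⟫_ℂ) + p y * ‖m‖ ^ 2 := fun y => by
    rw [e]; ring
  simp only [e', Finset.sum_add_distrib, Finset.sum_sub_distrib, ← Finset.mul_sum, ← Finset.sum_mul,
    h1, hp1]
  ring

/-- A convex average of operators which nearly normalise nearly normalises, up to its failure to
be a coisometry. -/
lemma norm_pairM_convex {ι : Type*} (s : Finset ι) (p : ι → ℝ) (hp : ∀ y ∈ s, 0 ≤ p y)
    (hp1 : ∑ y ∈ s, p y = 1) (V : ι → H →L[ℂ] H) (hV : ∀ y ∈ s, ∀ v, ‖star (V y) v‖ ≤ ‖v‖)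
    {X : Fin n → Fin n → H →L[ℂ] H} (hX : MatBound X 1) (Y : ι → Fin n → Fin n → H →L[ℂ] H)
    {K : ℝ} (hK : 0 ≤ K) (hY : ∀ y ∈ s, MatBound (fun i j => V y * X i j * star (V y) - Y y i j) K)
    (u v : Fin n → H) :
    ‖pairM X (fun i => (∑ y ∈ s, (p y : ℂ) • star (V y)) (u i))
        (fun j => (∑ y ∈ s, (p y : ℂ) • star (V y)) (v j)) -
      pairM (fun i j => ∑ y ∈ s, (p y : ℂ) • Y y i j) u v‖ ≤
      K * (√(nsq u) * √(nsq v)) +
      √(nsq u - nsq fun i => (∑ y ∈ s, (p y : ℂ) • star (V y)) (u i)) *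
        √(nsq v - nsq fun i => (∑ y ∈ s, (p y : ℂ) • star (V y)) (v i)) := by
  set S := ∑ y ∈ s, (p y : ℂ) • star (V y) with hS
  have hSa : ∀ w, S w = ∑ y ∈ s, (p y : ℂ) • star (V y) w := fun w => by simp [hS, sum_apply]
  have hp1' : ∑ y ∈ s, (p y : ℂ) = 1 := by exact_mod_cast hp1
  set a : ι → Fin n → H := fun y i => star (V y) (u i) - S (u i) with ha
  set b : ι → Fin n → H := fun y j => star (V y) (v j) - S (v j) with hb
  have hvar : ∀ w : Fin n → H,
      ∑ y ∈ s, p y * nsq (fun i => star (V y) (w i) - S (w i)) ≤ nsq w - nsq fun i => S (w i) := by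
    intro w
    simp only [nsq, Finset.mul_sum]
    rw [Finset.sum_comm, ← Finset.sum_sub_distrib]
    refine Finset.sum_le_sum fun i _ => ?_
    rw [hSa, sum_weight_norm_sub_sq s p hp1]
    gcongr
    refine (Finset.sum_le_sum fun y hy => mul_le_mul_of_nonneg_left
      (pow_le_pow_left₀ (norm_nonneg _) (hV y hy (w i)) 2) (hp y hy)).trans (le_of_eq ?_)
    rw [← Finset.sum_mul, hp1, one_mul]
  have key : ∑ y ∈ s, (p y : ℂ) * pairM X (a y) (b y) =
      (∑ y ∈ s, (p y : ℂ) * pairM (fun i j => V y * X i j * star (V y)) u v) -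
        pairM X (fun i => S (u i)) (fun j => S (v j)) := by
    simp only [pairM_conj]
    have e : ∀ y, pairM X (a y) (b y) = pairM X (fun i => star (V y) (u i)) (fun j => star (V y) (v j))
        - pairM X (fun i => star (V y) (u i)) (fun j => S (v j))
        - pairM X (fun i => S (u i)) (fun j => star (V y) (v j))
        + pairM X (fun i => S (u i)) (fun j => S (v j)) := fun y => by
      simp only [pairM, ha, hb, map_sub, Finset.sum_sub_distrib, inner_sub_left, inner_sub_right]
      abel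
    have c1 : ∑ y ∈ s, (p y : ℂ) * pairM X (fun i => star (V y) (u i)) (fun j => S (v j)) =
        pairM X (fun i => S (u i)) (fun j => S (v j)) := by
      simp only [pairM, Finset.mul_sum]
      rw [Finset.sum_comm]
      refine Finset.sum_congr rfl fun i _ => ?_
      rw [hSa (u i), sum_inner]
      exact Finset.sum_congr rfl fun y _ => by rw [inner_smul_left, Complex.conj_ofReal]
    have c2 : ∑ y ∈ s, (p y : ℂ) * pairM X (fun i => S (u i)) (fun j => star (V y) (v j)) =
        pairM X (fun i => S (u i)) (fun j => S (v j)) := by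
      simp only [pairM, inner_sum, Finset.mul_sum]
      rw [Finset.sum_comm]
      refine Finset.sum_congr rfl fun i _ => ?_
      rw [Finset.sum_comm]
      refine Finset.sum_congr rfl fun j _ => ?_
      rw [hSa (v j), map_sum, inner_sum]
      exact Finset.sum_congr rfl fun y _ => by rw [map_smul, inner_smul_right]
    simp only [e, mul_add, mul_sub, Finset.sum_add_distrib, Finset.sum_sub_distrib, c1, c2,
      ← Finset.sum_mul, hp1', one_mul]
    ring
  have main : pairM X (fun i => S (u i)) (fun j => S (v j)) -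
      pairM (fun i j => ∑ y ∈ s, (p y : ℂ) • Y y i j) u v =
      ∑ y ∈ s, (p y : ℂ) * pairM (fun i j => V y * X i j * star (V y) - Y y i j) u v -
        ∑ y ∈ s, (p y : ℂ) * pairM X (a y) (b y) := by
    simp only [key, pairM_sum, pairM_sub, mul_sub, Finset.sum_sub_distrib]
    ring
  rw [main]
  refine (norm_sub_le _ _).trans (add_le_add ?_ ?_)
  · refine (norm_sum_le _ _).trans ((Finset.sum_le_sum fun y hy => ?_).trans (le_of_eq (b :=
      K * (√(nsq u) * √(nsq v))) (a := ∑ y ∈ s, p y * (K * (√(nsq u) * √(nsq v)))) ?_))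
    · rw [norm_mul, Complex.norm_real, Real.norm_of_nonneg (hp y hy)]
      exact mul_le_mul_of_nonneg_left (norm_pairM_le hK (hY y hy) u v) (hp y hy)
    · rw [← Finset.sum_mul, hp1, one_mul]
  · refine (norm_sum_le _ _).trans ((Finset.sum_le_sum fun y hy => ?_).trans
      ((Real.sum_mul_le_sqrt_mul_sqrt s (fun y => √(p y) * √(nsq (a y)))
        (fun y => √(p y) * √(nsq (b y)))).trans ?_))
    · rw [norm_mul, Complex.norm_real, Real.norm_of_nonneg (hp y hy)]
      refine (mul_le_mul_of_nonneg_left (norm_pairM_le zero_le_one hX _ _) (hp y hy)).trans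
        (le_of_eq ?_)
      rw [one_mul, mul_mul_mul_comm, Real.mul_self_sqrt (hp y hy)]
    · refine mul_le_mul (Real.sqrt_le_sqrt ?_) (Real.sqrt_le_sqrt ?_) (Real.sqrt_nonneg _)
        (Real.sqrt_nonneg _)
      · refine le_trans (le_of_eq (Finset.sum_congr rfl fun y hy => ?_)) (hvar u)
        rw [mul_pow, Real.sq_sqrt (hp y hy), Real.sq_sqrt (nsq_nonneg _)]
      · refine le_trans (le_of_eq (Finset.sum_congr rfl fun y hy => ?_)) (hvar v)
        rw [mul_pow, Real.sq_sqrt (hp y hy), Real.sq_sqrt (nsq_nonneg _)]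

lemma norm_U_le_one (h : CycSep M ξ) (t : ℝ) : ‖U M ξ t‖ ≤ 1 :=
  ContinuousLinearMap.opNorm_le_bound _ zero_le_one fun v => by simpa using h.norm_U_le t v

lemma star_W (hN : CycSep N ξ) (hM : CycSep M ξ) (r : ℝ) : star (W N M ξ r) = W M N ξ r := by
  rw [W, W, star_mul, hN.star_U, hM.star_U, neg_neg]

/-- Each product of the flows conjugates `M` into `2 d` of `M`. -/
lemma exists_near_W (hN : CycSep N ξ) (hM : CycSep M ξ) {d : ℝ} (hd : Near M N d) (r : ℝ)
    {X : Fin n → Fin n → H →L[ℂ] H} (hX : ∀ i j, X i j ∈ M) (hXc : MatContraction X) :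
    ∃ Y : Fin n → Fin n → H →L[ℂ] H, (∀ i j, Y i j ∈ M) ∧ MatContraction Y ∧
      MatBound (fun i j => W N M ξ r * X i j * star (W N M ξ r) - Y i j) (2 * d) := by
  have hX1 : ∀ i j, U M ξ (-r) * X i j * U M ξ r ∈ M := fun i j => by
    simpa using hM.sigma_mem (-r) (hX i j)
  have hX1c : MatContraction fun i j => U M ξ (-r) * X i j * U M ξ r := contraction_of_matBound (by
    simpa using matBound_conj_le (matBound_of_contraction hXc) zero_le_one (norm_U_le_one hM (-r))
      (norm_U_le_one hM r))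
  obtain ⟨Z, hZ, hZc, hZb⟩ := hd.fwd n _ hX1 hX1c
  have hX2c : MatContraction fun i j => U N ξ r * Z i j * U N ξ (-r) := contraction_of_matBound (by
    simpa using matBound_conj_le (matBound_of_contraction hZc) zero_le_one (norm_U_le_one hN r)
      (norm_U_le_one hN (-r)))
  obtain ⟨Y, hY, hYc, hYb⟩ := hd.bwd n _ (fun i j => hN.sigma_mem r (hZ i j)) hX2c
  refine ⟨Y, hY, hYc, ?_⟩
  have h1 := matBound_conj_le (K := d) (A := U N ξ r) (B := U N ξ (-r))
    (e := fun i j => U M ξ (-r) * X i j * U M ξ r - Z i j) hZb hd.nonneg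
    (norm_U_le_one hN r) (norm_U_le_one hN (-r))
  have h2 := h1.add (by simpa using hd.nonneg) hd.nonneg
    (show MatBound (fun i j => U N ξ r * Z i j * U N ξ (-r) - Y i j) d from hYb)
  intro w
  have e : ∀ i j, W N M ξ r * X i j * star (W N M ξ r) - Y i j =
      U N ξ r * (U M ξ (-r) * X i j * U M ξ r - Z i j) * U N ξ (-r) +
        (U N ξ r * Z i j * U N ξ (-r) - Y i j) := fun i j => by
    rw [star_W hN hM, W, W]; noncomm_ring
  simp only [e]
  refine (h2 w).trans (le_of_eq ?_)
  ring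

/-- An average of a function of a simple function is a finite sum. -/
lemma integral_comp_simpleFunc {E : Type*} [NormedAddCommGroup E] [NormedSpace ℝ E]
    [CompleteSpace E] {μ : Measure ℝ} [IsFiniteMeasure μ] (φ : SimpleFunc ℝ ℝ) (g : ℝ → E) :
    ∫ x, g (φ x) ∂μ = ∑ y ∈ φ.range, μ.real (φ ⁻¹' {y}) • g y := by
  classical
  have e : ∀ x, g (φ x) = ∑ y ∈ φ.range, (φ ⁻¹' {y}).indicator (fun _ => g y) x := fun x => by
    rw [Finset.sum_eq_single (φ x)]
    · simp
    · intro y _ hy
      exact indicator_of_notMem (fun h => hy h.symm) _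
    · intro h; exact absurd (φ.mem_range_self x) h
  simp only [e]
  rw [integral_finsetSum _ fun y _ => (integrable_const (g y)).indicator (φ.measurableSet_fiber y)]
  exact Finset.sum_congr rfl fun y _ => integral_indicator_const _ (φ.measurableSet_fiber y)

/-- Each product of the flows, in the other order, conjugates `M` into `2 d` of `M`. -/
lemma exists_near_W' (hN : CycSep N ξ) (hM : CycSep M ξ) {d : ℝ} (hd : Near M N d) (r : ℝ)
    {X : Fin n → Fin n → H →L[ℂ] H} (hX : ∀ i j, X i j ∈ M) (hXc : MatContraction X) :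
    ∃ Y : Fin n → Fin n → H →L[ℂ] H, (∀ i j, Y i j ∈ M) ∧ MatContraction Y ∧
      MatBound (fun i j => W M N ξ r * X i j * star (W M N ξ r) - Y i j) (2 * d) := by
  obtain ⟨Z, hZ, hZc, hZb⟩ := hd.fwd n _ hX hXc
  have hZ1 : ∀ i j, U N ξ (-r) * Z i j * U N ξ r ∈ N := fun i j => by
    simpa using hN.sigma_mem (-r) (hZ i j)
  have hZ1c : MatContraction fun i j => U N ξ (-r) * Z i j * U N ξ r := contraction_of_matBound (by
    simpa using matBound_conj_le (matBound_of_contraction hZc) zero_le_one (norm_U_le_one hN (-r))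
      (norm_U_le_one hN r))
  obtain ⟨Y, hY, hYc, hYb⟩ := hd.bwd n _ hZ1 hZ1c
  refine ⟨fun i j => U M ξ r * Y i j * U M ξ (-r), fun i j => hM.sigma_mem r (hY i j),
    contraction_of_matBound (by
      simpa using matBound_conj_le (matBound_of_contraction hYc) zero_le_one (norm_U_le_one hM r)
        (norm_U_le_one hM (-r))), ?_⟩
  have hW1 : ‖W M N ξ r‖ ≤ 1 :=
    ContinuousLinearMap.opNorm_le_bound _ zero_le_one fun v => by
      simpa using norm_W_apply_le hM hN r v
  have h1 := matBound_conj_le (K := d) (a := 1) (b := 1) (A := W M N ξ r) (B := star (W M N ξ r))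
    (e := fun i j => X i j - Z i j) hZb hd.nonneg hW1 (by rwa [norm_star])
  have h2 := matBound_conj_le (K := d) (a := 1) (b := 1) (A := U M ξ r) (B := U M ξ (-r))
    (e := fun i j => U N ξ (-r) * Z i j * U N ξ r - Y i j) hYb hd.nonneg
    (norm_U_le_one hM r) (norm_U_le_one hM (-r))
  have h3 := h1.add (by simpa using hd.nonneg) (by simpa using hd.nonneg) h2
  intro w
  have e : ∀ i j, W M N ξ r * X i j * star (W M N ξ r) - U M ξ r * Y i j * U M ξ (-r) =
      W M N ξ r * (X i j - Z i j) * star (W M N ξ r) +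
        U M ξ r * (U N ξ (-r) * Z i j * U N ξ r - Y i j) * U M ξ (-r) := fun i j => by
    rw [star_W hM hN, W, W]; noncomm_ring
  simp only [e]
  refine (h3 w).trans (le_of_eq ?_)
  ring

/-- The Gaussian average nearly normalises an algebra nearly normalised by the products. -/
theorem nearInto_avgW (hN : CycSep N ξ) (hM : CycSep M ξ) (P : VonNeumannAlgebra H) {K : ℝ}
    (hK0 : 0 ≤ K)
    (hW : ∀ (m : ℕ) (r : ℝ) (X : Fin m → Fin m → H →L[ℂ] H), (∀ i j, X i j ∈ P) → MatContraction X →
      ∃ Y : Fin m → Fin m → H →L[ℂ] H, (∀ i j, Y i j ∈ P) ∧ MatContraction Y ∧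
        MatBound (fun i j => W N M ξ r * X i j * star (W N M ξ r) - Y i j) K)
    {a : ℝ} (ha : 0 < a) {η : ℝ} (hη : ‖avgW hN hM a * star (avgW hN hM a) - 1‖ ≤ η) :
    NearInto (avgW hN hM a) P (K + η) := by
  intro n X hX hXc
  choose Yr hYr hYrc hYrb using fun r => hW n r X hX hXc
  set φ : ℕ → SimpleFunc ℝ ℝ := (stronglyMeasurable_id (α := ℝ)).approx with hφ
  set p : ℕ → ℝ → ℝ := fun m y => gauss.real (φ m ⁻¹' {y}) with hp
  have hp0 : ∀ m y, 0 ≤ p m y := fun m y => measureReal_nonneg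
  have hp1 : ∀ m, ∑ y ∈ (φ m).range, p m y = 1 := fun m => by
    have := integral_comp_simpleFunc (μ := gauss) (φ m) (fun _ => (1 : ℝ))
    simpa using this.symm
  set T' : H →L[ℂ] H := star (avgW hN hM a) with hT'
  have hT'a : ∀ w, T' w = ∫ x, W M N ξ (x / a) w ∂gauss := fun w => by
    rw [hT', ← Ts_zero hN hM, star_Ts hN hM ha, Ts_zero]
    rfl
  set S : ℕ → H →L[ℂ] H := fun m => ∑ y ∈ (φ m).range, (p m y : ℂ) • star (W N M ξ (y / a)) with hS
  have hSt : ∀ w, Tendsto (fun m => S m w) atTop (𝓝 (T' w)) := fun w => by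
    have e : ∀ m, S m w = ∫ x, W M N ξ (φ m x / a) w ∂gauss := fun m => by
      rw [integral_comp_simpleFunc (φ m) fun y => W M N ξ (y / a) w]
      simp [hS, hp, sum_apply, star_W hN hM, Complex.coe_smul]
    simp only [e, hT'a]
    have hc : Continuous fun x => W M N ξ (x / a) w :=
      (continuous_W_apply hM hN w).comp (continuous_id.div_const a)
    refine tendsto_integral_of_dominated_convergence (fun _ => ‖w‖)
      (fun m => (hc.stronglyMeasurable.comp_measurable (φ m).measurable).aestronglyMeasurable)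
      (integrable_const _) (fun m => Eventually.of_forall fun x => norm_W_apply_le hM hN _ _)
      (Eventually.of_forall fun x => (hc.tendsto x).comp
        ((stronglyMeasurable_id (α := ℝ)).tendsto_approx x))
  set Ym : ℕ → Fin n → Fin n → H →L[ℂ] H :=
    fun m i j => ∑ y ∈ (φ m).range, (p m y : ℂ) • Yr (y / a) i j with hYm
  have hYmM : ∀ m i j, Ym m i j ∈ P := fun m i j =>
    sum_mem fun y _ => P.toStarSubalgebra.smul_mem (hYr _ i j) _
  have hYm1 : ∀ m i j, ‖Ym m i j‖ ≤ 1 := fun m i j => by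
    refine (norm_sum_le _ _).trans ((Finset.sum_le_sum fun y _ => ?_).trans (hp1 m).le)
    rw [norm_smul, Complex.norm_real, Real.norm_of_nonneg (hp0 m y)]
    exact mul_le_of_le_one_right (hp0 m y) (norm_entry_le (hYrc _) i j)
  let l : Ultrafilter ℕ := hyperfilter ℕ
  have hl : (l : Filter ℕ) ≤ atTop := Nat.hyperfilter_le_atTop
  have hb : ∀ m i j x, ‖Ym m i j x‖ ≤ ‖x‖ := fun m i j x => by
    simpa using (Ym m i j).le_of_opNorm_le (hYm1 m i j) x
  have hex : ∀ i j, ∃ Y ∈ P, ∀ x, WLim l (fun m => Ym m i j x) (Y x) := fun i j => by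
    obtain ⟨f, hf⟩ := KK.exists_linear_wLim l (fun m => (Ym m i j).toLinearMap) ⊤
      fun x _ => ⟨‖x‖, fun m => hb m i j x⟩
    refine ⟨f.mkContinuous 1 fun x => by
      rw [one_mul]; exact (hf x trivial).norm_le (Eventually.of_forall fun m => hb m i j x),
      ?_, fun x => hf x trivial⟩
    rw [← VonNeumannAlgebra.commutant_commutant P, VonNeumannAlgebra.mem_commutant_iff]
    intro g hg
    refine ContinuousLinearMap.ext fun x => ((hf x trivial).map g).unique
      ((hf (g x) trivial).congr (Eventually.of_forall fun m => ?_))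
    have := VonNeumannAlgebra.mem_commutant_iff.1 hg (Ym m i j) (hYmM m i j)
    exact congrArg (fun A : H →L[ℂ] H => A x) this
  choose Y hYM hY using hex
  refine ⟨Y, hYM, ?_⟩
  have hη0 : 0 ≤ η := (norm_nonneg _).trans hη
  have hK : 0 ≤ K + η := by linarith
  refine matBound_of_pairM hK fun u v => ?_
  rw [pairM_sub, pairM_conj]
  have hlimY : Tendsto (fun m => pairM (Ym m) u v) l (𝓝 (pairM Y u v)) := by
    simp only [pairM, inner_sum]
    refine tendsto_finsetSum _ fun i _ => tendsto_finsetSum _ fun j _ => ?_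
    have := (Complex.continuous_conj.tendsto _).comp (hY i j (v j) (u i))
    simpa [Function.comp_def, inner_conj_symm] using this
  have hlimX : Tendsto (fun m => pairM X (fun i => S m (u i)) (fun j => S m (v j))) l
      (𝓝 (pairM X (fun i => T' (u i)) (fun j => T' (v j)))) := by
    refine Tendsto.mono_left ?_ hl
    simp only [pairM]
    exact tendsto_finsetSum _ fun i _ => (hSt (u i)).inner (tendsto_finsetSum _ fun j _ =>
      ((X i j).continuous.tendsto _).comp (hSt (v j)))
  have hlimN : ∀ w : Fin n → H, Tendsto (fun m => nsq fun i => S m (w i)) l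
      (𝓝 (nsq fun i => T' (w i))) := fun w =>
    Tendsto.mono_left (tendsto_finsetSum _ fun i _ => ((hSt (w i)).norm.pow 2)) hl
  have hdef : ∀ w : Fin n → H, nsq w - nsq (fun i => T' (w i)) ≤ η * nsq w := fun w => by
    simp only [nsq, ← Finset.sum_sub_distrib, Finset.mul_sum]
    refine Finset.sum_le_sum fun i _ => ?_
    have e : ‖w i‖ ^ 2 - ‖T' (w i)‖ ^ 2 =
        -RCLike.re ⟪w i, (avgW hN hM a * star (avgW hN hM a) - 1) (w i)⟫_ℂ := by
      rw [sub_apply, mul_apply_eq_comp, one_apply_eq_self, inner_sub_right, map_sub,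
        inner_self_eq_norm_sq, ← inner_star_left, ← hT', inner_self_eq_norm_sq]
      ring
    rw [e]
    refine (neg_le_abs _).trans ((RCLike.abs_re_le_norm _).trans ((norm_inner_le_norm _ _).trans ?_))
    refine (mul_le_mul_of_nonneg_left (ContinuousLinearMap.le_of_opNorm_le _ hη (w i))
      (norm_nonneg _)).trans (le_of_eq ?_)
    ring
  have hlim := ((tendsto_const_nhds (x := K * (√(nsq u) * √(nsq v)))).add
    (((tendsto_const_nhds (x := nsq u)).sub (hlimN u)).sqrt.mul
      ((tendsto_const_nhds (x := nsq v)).sub (hlimN v)).sqrt))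
  refine (le_of_tendsto_of_tendsto (hlimX.sub hlimY).norm hlim (Eventually.of_forall fun m => ?_)).trans ?_
  · exact norm_pairM_convex (φ m).range (p m) (fun y _ => hp0 m y) (hp1 m)
      (fun y => W N M ξ (y / a))
      (fun y _ w => by rw [star_W hN hM]; exact norm_W_apply_le hM hN _ w)
      (matBound_of_contraction hXc) (fun y => Yr (y / a)) hK0
      (fun y _ => hYrb _) u v
  · rw [add_mul]
    refine add_le_add le_rfl ((mul_le_mul (Real.sqrt_le_sqrt (hdef u)) (Real.sqrt_le_sqrt (hdef v))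
      (Real.sqrt_nonneg _) (Real.sqrt_nonneg _)).trans (le_of_eq ?_))
    rw [Real.sqrt_mul hη0, Real.sqrt_mul hη0, mul_mul_mul_comm, Real.mul_self_sqrt hη0]

end Vale.Agent.P096.AT.Means
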