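import Vale.Agent.P096.AT.Setting

/-!
# Gaussian windows in the logarithm of the modular operator

`gw a c` is the function `exp (-((ell r - c) / a)^2)` of `R`, continued by zero at the end points;
it is a fixed function of the logistic function at shift `-c`.
-/

noncomputable section

namespace Vale.Agent.P096.AT.Means

open Complex Set Filter Topology
open Vale.Agent.P132.Tomita (ell qd phase)
open scoped ComplexConjugate

/-- The window at centre zero. -/
def gw0 (a r : ℝ) : ℝ := if r ∈ Ioo (0 : ℝ) 2 then Real.exp (-(ell r / a) ^ 2) else 0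

/-- The window at centre `c`. -/
def gw (a c r : ℝ) : ℝ := gw0 a (2 * logi (-c) r)

/-- The window with a phase. -/
def win (a s c r : ℝ) : ℂ := phase s r * (gw a c r : ℂ)

lemma logi_den_pos (c : ℝ) {r : ℝ} (hr : r ∈ Icc (0 : ℝ) 2) : 0 < r + Real.exp c * (2 - r) := by
  have he := Real.exp_pos c
  rcases hr.2.eq_or_lt with h | h
  · subst h; norm_num
  · nlinarith [hr.1, mul_pos he (sub_pos.2 h)]

lemma logi_mem (c : ℝ) {r : ℝ} (hr : r ∈ Icc (0 : ℝ) 2) : logi c r ∈ Icc (0 : ℝ) 1 := by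
  have hd := logi_den_pos c hr
  have hn : 0 ≤ Real.exp c * (2 - r) := mul_nonneg (Real.exp_pos c).le (by linarith [hr.2])
  exact ⟨div_nonneg hr.1 hd.le, by rw [logi, div_le_one hd]; linarith⟩

lemma two_logi_mem (c : ℝ) {r : ℝ} (hr : r ∈ Icc (0 : ℝ) 2) :
    2 * logi c r ∈ Icc (0 : ℝ) 2 := by
  have h := logi_mem c hr
  exact ⟨by linarith [h.1], by linarith [h.2]⟩

lemma continuousOn_logi_param :
    ContinuousOn (fun p : ℝ × ℝ => logi p.1 p.2) (univ ×ˢ Icc 0 2) := by
  refine ContinuousOn.div (by fun_prop) (by fun_prop) ?_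
  rintro ⟨c, r⟩ ⟨-, hr⟩
  exact (logi_den_pos c hr).ne'

lemma continuousOn_logi (c : ℝ) : ContinuousOn (logi c) (Icc 0 2) :=
  continuousOn_logi_param.comp (f := fun r : ℝ => (c, r)) (by fun_prop)
    fun _ hr => ⟨mem_univ _, hr⟩

lemma ell_two_logi (c : ℝ) {r : ℝ} (hr : r ∈ Ioo (0 : ℝ) 2) :
    2 * logi c r ∈ Ioo (0 : ℝ) 2 ∧ ell (2 * logi c r) = ell r + c := by
  have hd := logi_den_pos c (Ioo_subset_Icc_self hr)
  have h2 : 0 < 2 - r := by linarith [hr.2]
  have hn : 0 < Real.exp c * (2 - r) := mul_pos (Real.exp_pos c) h2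
  have hpos : 0 < logi c r := div_pos hr.1 hd
  have hlt : logi c r < 1 := by rw [logi, div_lt_one hd]; linarith
  refine ⟨⟨by linarith, by linarith⟩, ?_⟩
  have e : (2 - 2 * logi c r) / (2 * logi c r) = Real.exp c * ((2 - r) / r) := by
    have := hr.1.ne'
    rw [logi]
    field_simp
    ring
  rw [ell, ell, e, Real.log_mul (Real.exp_pos c).ne' (div_pos h2 hr.1).ne', Real.log_exp,
    add_comm]

lemma gw_of_mem (a c : ℝ) {r : ℝ} (hr : r ∈ Ioo (0 : ℝ) 2) :
    gw a c r = Real.exp (-((ell r - c) / a) ^ 2) := by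
  obtain ⟨h1, h2⟩ := ell_two_logi (-c) hr
  rw [gw, gw0, if_pos h1, h2, sub_eq_add_neg]

lemma gw_zero (a c : ℝ) : gw a c 0 = 0 := by simp [gw, gw0, logi]

lemma gw_two (a c : ℝ) : gw a c 2 = 0 := by simp [gw, gw0, logi]

lemma gw_nonneg (a c r : ℝ) : 0 ≤ gw a c r := by
  rw [gw, gw0]; split_ifs <;> positivity

lemma gw_le_one (a c r : ℝ) : gw a c r ≤ 1 := by
  rw [gw, gw0]
  split_ifs
  · exact Real.exp_le_one_iff.2 (by nlinarith [sq_nonneg (ell (2 * logi (-c) r) / a)])
  · exact zero_le_one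

lemma exp_neg_abs_ell_le {r : ℝ} (hr : r ∈ Ioo (0 : ℝ) 2) :
    Real.exp (-|ell r|) ≤ qd r := by
  have h2 : 0 < 2 - r := by linarith [hr.2]
  have hq : 0 < (2 - r) / r := div_pos h2 hr.1
  rcases le_total r 1 with h | h
  · have hge : 1 ≤ (2 - r) / r := by rw [le_div_iff₀ hr.1]; linarith
    rw [ell, abs_of_nonneg (Real.log_nonneg hge), Real.exp_neg, Real.exp_log hq, inv_div,
      qd, div_le_iff₀ h2]
    nlinarith [mul_le_mul_of_nonneg_left (show (1 : ℝ) ≤ (2 - r) * (2 - r) by nlinarith) hr.1.le]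
  · have hle : (2 - r) / r ≤ 1 := by rw [div_le_one hr.1]; linarith
    rw [ell, abs_of_nonpos (Real.log_nonpos hq.le hle), neg_neg, Real.exp_log hq,
      qd, div_le_iff₀ hr.1]
    nlinarith [mul_le_mul_of_nonneg_left (show (1 : ℝ) ≤ r * r by nlinarith) h2.le]

lemma gw0_le_qd {a : ℝ} (ha : 0 < a) {r : ℝ} (hr : r ∈ Icc (0 : ℝ) 2) :
    gw0 a r ≤ Real.exp (a ^ 2 / 4) * qd r := by
  rw [gw0]
  split_ifs with h
  · refine le_trans ?_ (mul_le_mul_of_nonneg_left (exp_neg_abs_ell_le h) (Real.exp_pos _).le)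
    rw [← Real.exp_add, Real.exp_le_exp]
    have h0 := sq_nonneg (|ell r| / a - a / 2)
    have e : (|ell r| / a - a / 2) ^ 2 = (ell r / a) ^ 2 - |ell r| + a ^ 2 / 4 := by
      rw [sub_sq, div_pow, div_pow, sq_abs]
      field_simp
      ring
    linarith
  · exact mul_nonneg (Real.exp_pos _).le (P132.Tomita.qd_nonneg hr)

lemma continuousOn_gw0 {a : ℝ} (ha : 0 < a) : ContinuousOn (gw0 a) (Icc 0 2) := by
  intro r hr
  by_cases h : r ∈ Ioo (0 : ℝ) 2
  · have hl : ContinuousAt ell r :=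
      P132.Tomita.continuousOn_ell.continuousAt (isOpen_Ioo.mem_nhds h)
    refine (ContinuousAt.congr (f := fun r => Real.exp (-(ell r / a) ^ 2)) ?_ ?_).continuousWithinAt
    · exact Real.continuous_exp.continuousAt.comp' ((hl.div_const a).pow 2).neg
    · filter_upwards [isOpen_Ioo.mem_nhds h] with s hs
      rw [gw0, if_pos hs]
  · have hq : qd r = 0 := by
      rcases eq_or_lt_of_le hr.1 with h' | h'
      · simp [qd, ← h']
      · have : r = 2 := by
          by_contra hne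
          exact h ⟨h', lt_of_le_of_ne hr.2 hne⟩
        simp [qd, this]
    have hb : Tendsto (fun s => Real.exp (a ^ 2 / 4) * qd s) (𝓝[Icc 0 2] r) (𝓝 0) := by
      have : Continuous fun s => Real.exp (a ^ 2 / 4) * qd s := by unfold qd; fun_prop
      simpa [hq] using (this.tendsto r).mono_left nhdsWithin_le_nhds
    unfold ContinuousWithinAt
    rw [show gw0 a r = 0 by rw [gw0, if_neg h]]
    refine squeeze_zero' ?_ ?_ hb
    · filter_upwards with s
      rw [gw0]; split_ifs <;> positivity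
    · filter_upwards [self_mem_nhdsWithin] with s hs
      exact gw0_le_qd ha hs

lemma continuousOn_gw_param {a : ℝ} (ha : 0 < a) :
    ContinuousOn (fun p : ℝ × ℝ => gw a p.1 p.2) (univ ×ˢ Icc 0 2) := by
  refine (continuousOn_gw0 ha).comp ?_ fun p hp => two_logi_mem _ hp.2
  exact continuousOn_const.mul (continuousOn_logi_param.comp
    (f := fun p : ℝ × ℝ => (-p.1, p.2)) (by fun_prop) fun p hp => ⟨mem_univ _, hp.2⟩)

lemma continuousOn_win_param {a : ℝ} (ha : 0 < a) (s : ℝ) :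
    ContinuousOn (fun p : ℝ × ℝ => win a s p.1 p.2) (univ ×ˢ Icc 0 2) := by
  rintro ⟨c, r⟩ ⟨-, hr⟩
  change r ∈ Icc (0 : ℝ) 2 at hr
  have hf : ContinuousWithinAt (fun p : ℝ × ℝ => (gw a p.1 p.2 : ℂ)) (univ ×ˢ Icc 0 2) (c, r) :=
    (continuous_ofReal.comp_continuousOn (continuousOn_gw_param ha)) _ ⟨mem_univ _, hr⟩
  by_cases h : r ∈ Ioo (0 : ℝ) 2
  · refine ContinuousWithinAt.mul ?_ hf
    have hl : ContinuousAt (fun p : ℝ × ℝ => ell p.2) (c, r) :=
      (P132.Tomita.continuousOn_ell.continuousAt (isOpen_Ioo.mem_nhds h)).comp' continuousAt_snd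
    exact (Complex.continuous_exp.continuousAt.comp'
      ((Complex.continuous_ofReal.continuousAt.comp' (continuousAt_const.mul hl)).mul
        continuousAt_const)).continuousWithinAt
  · have h0 : gw a c r = 0 := by
      rcases eq_or_lt_of_le hr.1 with h' | h'
      · rw [← h', gw_zero]
      · rw [show r = 2 by by_contra hne; exact h ⟨h', lt_of_le_of_ne hr.2 hne⟩, gw_two]
    unfold ContinuousWithinAt at hf ⊢
    simp only [win, h0, ofReal_zero, mul_zero] at hf ⊢
    refine squeeze_zero_norm (fun p => le_of_eq ?_) (by simpa using hf.norm)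
    rw [norm_mul, P132.Tomita.norm_phase, one_mul, Complex.norm_real, Real.norm_eq_abs]

lemma continuousOn_win {a : ℝ} (ha : 0 < a) (s c : ℝ) : ContinuousOn (win a s c) (Icc 0 2) :=
  (continuousOn_win_param ha s).comp (f := fun r : ℝ => (c, r)) (by fun_prop)
    fun _ hr => ⟨mem_univ _, hr⟩

lemma win_zero (a s c : ℝ) : win a s c 0 = 0 := by simp [win, gw_zero]

lemma win_two (a s c : ℝ) : win a s c 2 = 0 := by simp [win, gw_two]

lemma norm_win (a s c r : ℝ) : ‖win a s c r‖ = gw a c r := by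
  rw [win, norm_mul, P132.Tomita.norm_phase, one_mul, Complex.norm_real,
    Real.norm_of_nonneg (gw_nonneg a c r)]

/-- Two windows far apart have a small product. -/
lemma gw_mul_le {a b : ℝ} (ha : 0 < a) (hb : 0 < b) (c d r : ℝ) (hr : r ∈ Icc (0 : ℝ) 2) :
    gw a c r * gw b d r ≤ Real.exp (-(c - d) ^ 2 / (a ^ 2 + b ^ 2)) := by
  by_cases h : r ∈ Ioo (0 : ℝ) 2
  · rw [gw_of_mem a c h, gw_of_mem b d h, ← Real.exp_add, Real.exp_le_exp, neg_div, ← neg_add,
      neg_le_neg_iff]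
    have key : ∀ x y : ℝ, (x - y) ^ 2 / (a ^ 2 + b ^ 2) ≤ (x / a) ^ 2 + (y / b) ^ 2 := fun x y => by
      rw [div_pow, div_pow, div_add_div _ _ (by positivity) (by positivity),
        div_le_div_iff₀ (by positivity) (by positivity)]
      nlinarith [sq_nonneg (x * b ^ 2 + y * a ^ 2)]
    refine le_trans (le_of_eq ?_) (key (ell r - c) (ell r - d))
    ring
  · have h0 : gw a c r = 0 := by
      rcases eq_or_lt_of_le hr.1 with h' | h'
      · rw [← h', gw_zero]
      · rw [show r = 2 by by_contra hne; exact h ⟨h', lt_of_le_of_ne hr.2 hne⟩, gw_two]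
    rw [h0, zero_mul]
    positivity

end Vale.Agent.P096.AT.Means
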